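import Vale.Agent.P284.H206.Bog.Glob3
import Mathlib.LinearAlgebra.Alternating.Uncurry.Fin
import Mathlib.LinearAlgebra.Determinant

/-!
# P284 (helper206), module BOG: `R`-forms in `R + 1` variables, linear algebra
-/

open scoped Manifold ContDiff Topology ComplexOrder ComplexConjugate Matrix
open Filter Set MeasureTheory

noncomputable section

namespace Vale.Agent.P284.H206.Bog

open Vale.Agent.P272.K Vale.Agent.P272.K.INT Vale.Agent.P272.KOD

variable {R : ℕ}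

/-- `α ∧ β` -/
def wd {N : ℕ} (α : (Fin N → ℂ) →ₗ[ℂ] ℂ) (β : (Fin N → ℂ) [⋀^Fin R]→ₗ[ℂ] ℂ) :
    (Fin N → ℂ) [⋀^Fin (R + 1)]→ₗ[ℂ] ℂ :=
  AlternatingMap.alternatizeUncurryFin (α.smulRight β)

theorem wd_apply {N : ℕ} (α : (Fin N → ℂ) →ₗ[ℂ] ℂ) (β : (Fin N → ℂ) [⋀^Fin R]→ₗ[ℂ] ℂ)
    (v : Fin (R + 1) → Fin N → ℂ) :
    wd α β v = ∑ j : Fin (R + 1), (-1) ^ (j : ℕ) * (α (v j) * β (fun a => v (j.succAbove a))) := by
  rw [wd, AlternatingMap.alternatizeUncurryFin_apply]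
  refine Finset.sum_congr rfl fun j _ => ?_
  simp only [LinearMap.smulRight_apply, AlternatingMap.smul_apply, smul_eq_mul, Units.smul_def,
    zsmul_eq_mul, Int.cast_pow, Int.cast_neg, Int.cast_one]
  rfl

/-- the vector dual to a form of degree `R` in `R + 1` variables -/
def vb (β : (Fin (R + 1) → ℂ) [⋀^Fin R]→ₗ[ℂ] ℂ) (j : Fin (R + 1)) : ℂ :=
  (-1) ^ (j : ℕ) * β (fun a => Pi.single (j.succAbove a) 1)

theorem wd_std (α : (Fin (R + 1) → ℂ) →ₗ[ℂ] ℂ) (β : (Fin (R + 1) → ℂ) [⋀^Fin R]→ₗ[ℂ] ℂ) :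
    wd α β (fun j => Pi.single j 1) = ∑ j, α (Pi.single j 1) * vb β j := by
  rw [wd_apply]
  refine Finset.sum_congr rfl fun j _ => ?_
  rw [vb]; ring

theorem top_comp {N : ℕ} (f : (Fin N → ℂ) [⋀^Fin N]→ₗ[ℂ] ℂ) (J : Matrix (Fin N) (Fin N) ℂ) :
    f (fun j => J *ᵥ (Pi.single j 1)) = J.det * f (fun j => Pi.single j 1) := by
  have h := f.eq_smul_basis_det (Pi.basisFun ℂ (Fin N))
  have e1 : (fun j => J *ᵥ (Pi.single j 1 : Fin N → ℂ)) =
      (Matrix.toLin' J) ∘ (Pi.basisFun ℂ (Fin N)) := by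
    funext j
    simp [Pi.basisFun_apply, Matrix.toLin'_apply]
  have e2 : (fun j => (Pi.single j 1 : Fin N → ℂ)) = (Pi.basisFun ℂ (Fin N)) := by
    funext j; simp [Pi.basisFun_apply]
  rw [e1, e2, h, AlternatingMap.smul_apply, AlternatingMap.smul_apply, Module.Basis.det_comp,
    LinearMap.det_toLin']
  simp only [smul_eq_mul]
  ring

theorem vb_comp {β β' : (Fin (R + 1) → ℂ) [⋀^Fin R]→ₗ[ℂ] ℂ} {J : Matrix (Fin (R + 1)) (Fin (R + 1)) ℂ}
    (h : ∀ ξ, β ξ = β' (fun a => J *ᵥ ξ a)) : J *ᵥ vb β = J.det • vb β' := by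
  funext l
  have h1 := top_comp (wd (LinearMap.proj l) β') J
  rw [wd_std] at h1
  have h2 : ∑ j, (LinearMap.proj l : (Fin (R + 1) → ℂ) →ₗ[ℂ] ℂ) (Pi.single j 1) * vb β' j =
      vb β' l := by
    rw [Finset.sum_eq_single l]
    · simp
    · intro j _ hj
      simp [Pi.single_apply, hj.symm]
    · intro h; exact absurd (Finset.mem_univ l) h
  rw [h2, wd_apply] at h1
  rw [Pi.smul_apply, smul_eq_mul, ← h1, Matrix.mulVec, dotProduct]
  refine Finset.sum_congr rfl fun j _ => ?_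
  rw [vb, h]
  simp only [LinearMap.proj_apply, Matrix.mulVec_single_one, Matrix.col_apply]
  ring

end Vale.Agent.P284.H206.Bog
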