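import Vale.Agent.P284.H206.Bog.App1
import Vale.Agent.P284.H248.Defs
import Vale.Agent.P284.H451.JetZ

/-!
# P284 (helper206), module BOG: the form of type `(N-1,N-1)` attached to a section and a morphism

`L` a line bundle on a manifold of dimension `R + 1`, `s` a section of `L^k`, `φ : L → Ω^R`: the form
`|s|^{2/k} φ ∧ φ̄`.
-/

open scoped Manifold ContDiff Topology ComplexOrder ComplexConjugate Matrix
open Filter Set MeasureTheory

noncomputable section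

namespace Vale.Agent.P284.H206.Bog

open Vale.Agent.P272.K Vale.Agent.P272.K.INT Vale.Agent.P272.KOD Vale.Agent.P284.H248

variable {R : ℕ} {Z : Type} [TopologicalSpace Z] [ChartedSpace (Cm (R + 1)) Z]
  {L : LineBundle (R + 1) Z} {k : ℕ}

/-- the dual vector of the form -/
def bv (φ : Mor L R) (i : L.ι) (c : Chart (R + 1) Z) (ζ : Cm (R + 1)) : Cm (R + 1) :=
  vb (φ.form i c ζ)

theorem bv_holo (φ : Mor L R) {i : L.ι} {c : Chart (R + 1) Z} {z : Z} (hz : At c z)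
    (hi : z ∈ L.U i) (j : Fin (R + 1)) : ContDiffAt ℂ ω (fun ζ => bv φ i c ζ j) (c z) := by
  unfold bv vb
  exact contDiffAt_const.mul (φ.holo i c z hz hi _)

theorem bv_glue (φ : Mor L R) {i i' : L.ι} {c : Chart (R + 1) Z} {z : Z} (hz : At c z)
    (hi : z ∈ L.U i) (hi' : z ∈ L.U i') : bv φ i' c (c z) = L.g i i' z • bv φ i c (c z) := by
  funext j
  simp only [bv, vb, Pi.smul_apply, smul_eq_mul]
  rw [φ.glue i i' c z hz hi hi', AlternatingMap.smul_apply, smul_eq_mul]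
  ring

theorem bv_change [IsManifold 𝓘(ℂ, Cm (R + 1)) ω Z] (φ : Mor L R) {i : L.ι}
    {c c' : Chart (R + 1) Z} {z : Z} (hz : At c z) (hz' : At c' z) (hi : z ∈ L.U i) :
    jacM c c' z *ᵥ bv φ i c (c z) = (jacM c c' z).det • bv φ i c' (c' z) := by
  refine vb_comp fun ξ => ?_
  rw [φ.change i c c' z hz hz' hi, AlternatingMap.compLinearMap_apply]
  congr 1
  funext a
  funext p
  have h := jmat_mulVec (transition_differentiableAt hz hz') (ξ a) p
  show (fderiv ℂ (fun z => c' (c.symm z)) (c z)) (ξ a) p = _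
  rw [h, jacM_eq]
  rfl

/-- an index at a point -/
def ix (L : LineBundle (R + 1) Z) (z : Z) : L.ι := Classical.choose (L.cover z)

theorem ix_mem (L : LineBundle (R + 1) Z) (z : Z) : z ∈ L.U (ix L z) :=
  Classical.choose_spec (L.cover z)

/-- the weight `|s|^{2/k}` -/
def wt (s : Sec L k) (i : L.ι) (z : Z) : ℝ := (‖s.f i z‖ ^ 2) ^ ((k : ℝ)⁻¹)

theorem wt_nonneg (s : Sec L k) (i : L.ι) (z : Z) : 0 ≤ wt s i z :=
  Real.rpow_nonneg (by positivity) _

theorem wt_glue (hk : k ≠ 0) (s : Sec L k) {i i' : L.ι} {z : Z} (hi : z ∈ L.U i)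
    (hi' : z ∈ L.U i') : wt s i z = ‖L.g i i' z‖ ^ 2 * wt s i' z := by
  unfold wt
  rw [s.change i i' z hi hi', norm_mul, norm_pow, mul_pow, ← pow_mul, mul_comm k 2, pow_mul,
    Real.mul_rpow (by positivity) (by positivity), Real.pow_rpow_inv_natCast (by positivity) hk]

/-- the coefficient matrix of the form -/
def AA (s : Sec L k) (φ : Mor L R) (c : Chart (R + 1) Z) (ζ : Cm (R + 1)) :
    Matrix (Fin (R + 1)) (Fin (R + 1)) ℂ :=
  ((wt s (ix L (c.symm ζ)) (c.symm ζ) : ℝ) : ℂ) •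
    Matrix.vecMulVec (bv φ (ix L (c.symm ζ)) c ζ) (star (bv φ (ix L (c.symm ζ)) c ζ))

theorem AA_eq (hk : k ≠ 0) (s : Sec L k) (φ : Mor L R) {c : Chart (R + 1) Z} {z : Z} (hz : At c z)
    {i : L.ι} (hi : z ∈ L.U i) : AA s φ c (c z) =
      ((wt s i z : ℝ) : ℂ) • Matrix.vecMulVec (bv φ i c (c z)) (star (bv φ i c (c z))) := by
  unfold AA
  rw [hz.left_inv]
  have hj := ix_mem L z
  rw [wt_glue hk s hi hj, bv_glue φ hz hi hj]
  ext a b
  simp only [Matrix.smul_apply, Matrix.vecMulVec_apply, Pi.star_apply, Pi.smul_apply, smul_eq_mul,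
    star_mul', Complex.ofReal_mul, ← Complex.normSq_eq_norm_sq, ← Complex.mul_conj]
  simp only [RCLike.star_def]
  ring

theorem U_ev {c : Chart (R + 1) Z} {z : Z} (hz : At c z) {i : L.ι} (hi : z ∈ L.U i) :
    ∀ᶠ ζ in 𝓝 (c z), ζ ∈ c.target ∧ At c (c.symm ζ) ∧ c.symm ζ ∈ L.U i := by
  have h2 : ∀ᶠ ζ in 𝓝 (c z), c.symm ζ ∈ L.U i :=
    ev_symm hz ((L.isOpen i).mem_nhds hi)
  filter_upwards [hz.nhds_target, h2] with ζ h h'
  exact ⟨h, At.of_target hz.1 h, h'⟩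

theorem AA_ev (hk : k ≠ 0) (s : Sec L k) (φ : Mor L R) {c : Chart (R + 1) Z} {z : Z} (hz : At c z)
    {i : L.ι} (hi : z ∈ L.U i) : AA s φ c =ᶠ[𝓝 (c z)] fun ζ =>
      ((wt s i (c.symm ζ) : ℝ) : ℂ) • Matrix.vecMulVec (bv φ i c ζ) (star (bv φ i c ζ)) := by
  filter_upwards [U_ev hz hi] with ζ hζ
  have := AA_eq hk s φ hζ.2.1 hζ.2.2
  rwa [c.right_inv hζ.1] at this

theorem AA_change [IsManifold 𝓘(ℂ, Cm (R + 1)) ω Z] (hk : k ≠ 0) (s : Sec L k) (φ : Mor L R)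
    (c c' : Chart (R + 1) Z) (z : Z) (hz : At c z) (hz' : At c' z) :
    jacM c c' z * AA s φ c (c z) * (jacM c c' z)ᴴ =
      ((‖(jacM c c' z).det‖ ^ 2 : ℝ) : ℂ) • AA s φ c' (c' z) := by
  obtain ⟨i, hi⟩ := L.cover z
  rw [AA_eq hk s φ hz hi, AA_eq hk s φ hz' hi]
  have h := bv_change φ hz hz' hi
  set J := jacM c c' z
  set b := bv φ i c (c z)
  have e1 : J * Matrix.vecMulVec b (star b) * Jᴴ = Matrix.vecMulVec (J *ᵥ b) (star (J *ᵥ b)) := by
    rw [Matrix.mul_vecMulVec, Matrix.vecMulVec_mul, Matrix.star_mulVec]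
  rw [Matrix.mul_smul, Matrix.smul_mul, e1, h, smul_comm]
  congr 1
  ext a b
  simp only [Matrix.smul_apply, Matrix.vecMulVec_apply, Pi.star_apply, Pi.smul_apply, smul_eq_mul,
    star_mul', ← Complex.normSq_eq_norm_sq, ← Complex.mul_conj]
  simp only [RCLike.star_def]
  ring

theorem wt_smooth (s : Sec L k) {c : Chart (R + 1) Z} {z : Z} (hz : At c z)
    {i : L.ι} (hi : z ∈ L.U i) (h0 : s.f i z ≠ 0) :
    ContDiffAt ℝ ∞ (fun ζ => wt s i (c.symm ζ)) (c z) := by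
  unfold wt
  have h1 : ContDiffAt ℝ ∞ (fun ζ => s.f i (c.symm ζ)) (c z) :=
    ((s.holo i c z hz hi).restrict_scalars ℝ).of_le (by exact le_top)
  refine ContDiffAt.rpow_const_of_ne (h1.norm_sq ℝ) ?_
  rw [hz.left_inv]
  positivity

theorem wt_cont (hk : k ≠ 0) (s : Sec L k) {c : Chart (R + 1) Z} {z : Z} (hz : At c z)
    {i : L.ι} (hi : z ∈ L.U i) :
    ContinuousAt (fun ζ => wt s i (c.symm ζ)) (c z) := by
  unfold wt
  have h1 : ContinuousAt (fun ζ => s.f i (c.symm ζ)) (c z) := (s.holo i c z hz hi).continuousAt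
  exact (h1.norm.pow 2).rpow_const (Or.inr (by positivity))

theorem AA_smooth (hk : k ≠ 0) (s : Sec L k) (φ : Mor L R) {c : Chart (R + 1) Z} {z : Z}
    (hz : At c z) {i : L.ι} (hi : z ∈ L.U i) (h0 : s.f i z ≠ 0) (a b : Fin (R + 1)) :
    ContDiffAt ℝ ∞ (fun ζ => AA s φ c ζ a b) (c z) := by
  have h1 : (fun ζ => AA s φ c ζ a b) =ᶠ[𝓝 (c z)] fun ζ =>
      ((wt s i (c.symm ζ) : ℝ) : ℂ) * (bv φ i c ζ a * conj (bv φ i c ζ b)) := by
    filter_upwards [AA_ev hk s φ hz hi] with ζ hζ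
    rw [hζ]
    simp only [Matrix.smul_apply, Matrix.vecMulVec_apply, Pi.star_apply, smul_eq_mul,
      RCLike.star_def]
  refine ContDiffAt.congr_of_eventuallyEq ?_ h1
  have hb : ∀ j, ContDiffAt ℝ ∞ (fun ζ => bv φ i c ζ j) (c z) := fun j =>
    ((bv_holo φ hz hi j).restrict_scalars ℝ).of_le (by exact le_top)
  exact (Complex.ofRealCLM.contDiff.contDiffAt.comp (c z) (wt_smooth s hz hi h0)).mul
    ((hb a).mul (Complex.conjCLE.contDiff.contDiffAt.comp (c z) (hb b)))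

theorem AA_cont (hk : k ≠ 0) (s : Sec L k) (φ : Mor L R) {c : Chart (R + 1) Z} {z : Z}
    (hz : At c z) (a b : Fin (R + 1)) :
    ContinuousAt (fun ζ => AA s φ c ζ a b) (c z) := by
  obtain ⟨i, hi⟩ := L.cover z
  have h1 : (fun ζ => AA s φ c ζ a b) =ᶠ[𝓝 (c z)] fun ζ =>
      ((wt s i (c.symm ζ) : ℝ) : ℂ) * (bv φ i c ζ a * conj (bv φ i c ζ b)) := by
    filter_upwards [AA_ev hk s φ hz hi] with ζ hζ
    rw [hζ]
    simp only [Matrix.smul_apply, Matrix.vecMulVec_apply, Pi.star_apply, smul_eq_mul,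
      RCLike.star_def]
  refine ContinuousAt.congr ?_ h1.symm
  have hb : ∀ j, ContinuousAt (fun ζ => bv φ i c ζ j) (c z) := fun j =>
    (bv_holo φ hz hi j).continuousAt
  exact (Complex.continuous_ofReal.continuousAt.comp (wt_cont hk s hz hi)).mul
    ((hb a).mul (Complex.continuous_conj.continuousAt.comp (hb b)))

end Vale.Agent.P284.H206.Bog
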