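import Vale.Agent.P284.H206.Bog.App2

/-!
# P284 (helper206), module BOG: bounds for the form
-/

open scoped Manifold ContDiff Topology ComplexOrder ComplexConjugate Matrix
open Filter Set MeasureTheory

noncomputable section

namespace Vale.Agent.P284.H206.Bog

open Vale.Agent.P272.K Vale.Agent.P272.K.INT Vale.Agent.P272.KOD Vale.Agent.P284.H248

section lin
variable {n : ℕ}

theorem cs0 {g : Matrix (Fin n) (Fin n) ℂ} (hg : g.PosDef) (u v : Fin n → ℂ) :
    ‖star u ⬝ᵥ (g *ᵥ v)‖ ^ 2 ≤ (star u ⬝ᵥ (g *ᵥ u)).re * (star v ⬝ᵥ (g *ᵥ v)).re := by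
  by_cases hv : v = 0
  · subst hv
    simp
  have hc : 0 < (star v ⬝ᵥ (g *ᵥ v)).re := (Complex.pos_iff.1 (hg.dotProduct_mulVec_pos hv)).1
  have hci : (star v ⬝ᵥ (g *ᵥ v)).im = 0 := (Complex.pos_iff.1 (hg.dotProduct_mulVec_pos hv)).2.symm
  set p := star u ⬝ᵥ (g *ᵥ v) with hp
  set c := (star v ⬝ᵥ (g *ᵥ v)).re with hcdef
  have hcc : star v ⬝ᵥ (g *ᵥ v) = (c : ℂ) := Complex.ext (by simp [hcdef]) (by simp [hci])
  have hvu : star v ⬝ᵥ (g *ᵥ u) = conj p := by
    rw [hp, ← Complex.star_def, ← Matrix.star_dotProduct_star, star_star, Matrix.star_mulVec,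
      hg.isHermitian.eq, dotProduct_comm, ← Matrix.dotProduct_mulVec, dotProduct_comm]
  set t : ℂ := -conj p / c with ht
  have h := hg.posSemidef.re_dotProduct_nonneg (u + t • v)
  have e : star (u + t • v) ⬝ᵥ (g *ᵥ (u + t • v)) =
      star u ⬝ᵥ (g *ᵥ u) + t * p + conj t * conj p + conj t * t * c := by
    rw [star_add, star_smul, Matrix.mulVec_add, Matrix.mulVec_smul, add_dotProduct,
      dotProduct_add, dotProduct_add, smul_dotProduct, smul_dotProduct, dotProduct_smul,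
      dotProduct_smul, hvu, hcc, ← hp]
    simp only [smul_eq_mul, Complex.star_def]
    ring
  have hc0 : (c : ℂ) ≠ 0 := by exact_mod_cast hc.ne'
  have hpp : p * conj p = ((‖p‖ ^ 2 : ℝ) : ℂ) := by
    rw [Complex.mul_conj, Complex.normSq_eq_norm_sq]
  have e2 : t * p + conj t * conj p + conj t * t * c = ((-(‖p‖ ^ 2 / c) : ℝ) : ℂ) := by
    have e3 : conj t = -p / c := by
      rw [ht]; simp
    rw [e3, ht]
    push_cast
    field_simp
    have : p * conj p = (‖p‖ : ℂ) ^ 2 := by rw [hpp]; push_cast; rfl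
    linear_combination (-1 : ℂ) * this
  have e4 : RCLike.re (star (u + t • v) ⬝ᵥ (g *ᵥ (u + t • v))) =
      (star u ⬝ᵥ (g *ᵥ u)).re - ‖p‖ ^ 2 / c := by
    rw [e]
    have : star u ⬝ᵥ (g *ᵥ u) + t * p + conj t * conj p + conj t * t * c =
        star u ⬝ᵥ (g *ᵥ u) + ((-(‖p‖ ^ 2 / c) : ℝ) : ℂ) := by rw [← e2]; ring
    rw [this]
    simp only [RCLike.re_eq_complex_re, Complex.add_re, Complex.ofReal_re]
    ring
  rw [e4] at h
  have h5 : ‖p‖ ^ 2 / c ≤ (star u ⬝ᵥ (g *ᵥ u)).re := by linarith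
  rwa [div_le_iff₀ hc] at h5

theorem pr_vv (b ξ : Fin n → ℂ) :
    (pr (Matrix.vecMulVec b (star b)) (Matrix.vecMulVec ξ (star ξ))) =
      ((‖b ⬝ᵥ ξ‖ ^ 2 : ℝ) : ℂ) := by
  rw [← Complex.normSq_eq_norm_sq, ← Complex.mul_conj]
  simp only [pr, Matrix.vecMulVec_apply, Pi.star_apply, dotProduct, map_sum, map_mul,
    Finset.sum_mul_sum, RCLike.star_def]
  refine Finset.sum_congr rfl fun j _ => Finset.sum_congr rfl fun k _ => ?_
  ring

theorem pr_vg (b : Fin n → ℂ) (g : Matrix (Fin n) (Fin n) ℂ) :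
    pr (Matrix.vecMulVec b (star b)) g = star (star b) ⬝ᵥ (g *ᵥ (star b)) := by
  simp only [pr, Matrix.vecMulVec_apply, Pi.star_apply, dotProduct, Matrix.mulVec, star_star,
    Finset.mul_sum]
  refine Finset.sum_congr rfl fun j _ => Finset.sum_congr rfl fun k _ => ?_
  ring

theorem pr_vg_nonneg (b : Fin n → ℂ) {g : Matrix (Fin n) (Fin n) ℂ} (hg : g.PosDef) :
    0 ≤ (pr (Matrix.vecMulVec b (star b)) g).re := by
  rw [pr_vg]
  exact hg.posSemidef.re_dotProduct_nonneg _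

theorem cs1 {g : Matrix (Fin n) (Fin n) ℂ} (hg : g.PosDef) (b ξ : Fin n → ℂ) :
    ‖b ⬝ᵥ ξ‖ ^ 2 * g.det.re ≤ (pr (Matrix.vecMulVec b (star b)) g).re *
      (pr (g.adjugate)ᵀ (Matrix.vecMulVec ξ (star ξ))).re := by
  have hd : 0 < g.det.re := (Complex.pos_iff.1 hg.det_pos).1
  have hdi : g.det.im = 0 := (Complex.pos_iff.1 hg.det_pos).2.symm
  have hdd : g.det = ((g.det.re : ℝ) : ℂ) := Complex.ext (by simp) (by simp [hdi])
  have h := cs0 hg (star b) (g.adjugate *ᵥ ξ)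
  rw [Matrix.mulVec_mulVec, Matrix.mul_adjugate, Matrix.smul_mulVec, Matrix.one_mulVec,
    star_star, dotProduct_smul, dotProduct_smul] at h
  have h2 : star (g.adjugate *ᵥ ξ) ⬝ᵥ ξ = star ξ ⬝ᵥ (g.adjugate *ᵥ ξ) := by
    rw [Matrix.star_mulVec, (adj_posSemidef hg).isHermitian.eq, ← Matrix.dotProduct_mulVec]
  rw [h2, smul_eq_mul, smul_eq_mul, hdd, norm_mul, Complex.norm_real, Real.norm_of_nonneg hd.le,
    Complex.re_ofReal_mul] at h
  rw [pr_vg, pr_rank, star_star]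
  refine le_of_mul_le_mul_left ?_ hd
  calc g.det.re * (‖b ⬝ᵥ ξ‖ ^ 2 * g.det.re) = (g.det.re * ‖b ⬝ᵥ ξ‖) ^ 2 := by ring
    _ ≤ _ := h
    _ = _ := by ring

end lin

section
variable {R : ℕ} {Z : Type} [TopologicalSpace Z] [ChartedSpace (Cm (R + 1)) Z]
  [IsManifold 𝓘(ℂ, Cm (R + 1)) ω Z]
  {L : LineBundle (R + 1) Z} {k : ℕ} {w : Chart (R + 1) Z → Cm (R + 1) → ℝ}

/-- the norm of the form relative to the metric -/
def NA (w : Chart (R + 1) Z → Cm (R + 1) → ℝ) (s : Sec L k) (φ : Mor L R) (z : Z) : ℝ :=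
  (pr (AA s φ (chartAt (Cm (R + 1)) z) (chartAt (Cm (R + 1)) z z))
    (cHess (w (chartAt (Cm (R + 1)) z)) (chartAt (Cm (R + 1)) z z))).re /
      dg w (chartAt (Cm (R + 1)) z) (chartAt (Cm (R + 1)) z z)

theorem NA_eq (hw : IsCanonicalMetric w) (hk : k ≠ 0) (s : Sec L k) (φ : Mor L R)
    {c : Chart (R + 1) Z} {z : Z} (hz : At c z) :
    NA w s φ z = (pr (AA s φ c (c z)) (cHess (w c) (c z))).re / dg w c (c z) := by
  have hz' : At (chartAt (Cm (R + 1)) z) z := ⟨chart_mem_atlas _ _, mem_chart_source _ _⟩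
  have h1 := AA_change hk s φ _ _ z hz' hz
  have h2 := isForm_canonical (φ := w) (fun e x h => (hw.smooth e x h).of_le two_le_inf) hw.change
      _ _ z hz' hz
  have h3 := pr_change h1 h2
  have h4 := (dg_density hw).change _ _ z hz' hz
  have hd := jacM_det_ne_zero hz' hz
  have hd' : (‖(jacM (chartAt (Cm (R + 1)) z) c z).det‖ ^ 2 : ℝ) ≠ 0 := by positivity
  rw [NA, h3, h4, Complex.re_ofReal_mul, mul_comm (dg w c (c z)), mul_div_mul_left _ _ hd']

omit [IsManifold 𝓘(ℂ, Cm (R + 1)) ω Z] in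
theorem NA_nonneg (hpos : ∀ e x, At e x → (cHess (w e) (e x)).PosDef) (s : Sec L k) (φ : Mor L R)
    (hk : k ≠ 0) {c : Chart (R + 1) Z} {z : Z} (hz : At c z) :
    0 ≤ (pr (AA s φ c (c z)) (cHess (w c) (c z))).re := by
  obtain ⟨i, hi⟩ := L.cover z
  have e : ∀ (a : ℂ) (B H : Matrix (Fin (R + 1)) (Fin (R + 1)) ℂ), pr (a • B) H = a * pr B H := by
    intro a B H
    simp only [pr, Matrix.smul_apply, smul_eq_mul, Finset.mul_sum]
    exact Finset.sum_congr rfl fun j _ => Finset.sum_congr rfl fun k _ => by ring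
  rw [AA_eq hk s φ hz hi, e, Complex.re_ofReal_mul]
  exact mul_nonneg (wt_nonneg s i z) (pr_vg_nonneg _ (hpos c z hz))

theorem NA_cont (hw : IsCanonicalMetric w) (hpos : ∀ e x, At e x → (cHess (w e) (e x)).PosDef)
    (hk : k ≠ 0) (s : Sec L k) (φ : Mor L R) : Continuous (NA w s φ) := by
  rw [continuous_iff_continuousAt]
  intro z
  set c := chartAt (Cm (R + 1)) z with hc
  have hz : At c z := ⟨chart_mem_atlas _ _, mem_chart_source _ _⟩
  have h1 : ContinuousAt (fun ζ => (pr (AA s φ c ζ) (cHess (w c) ζ)).re / dg w c ζ) (c z) := by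
    refine ContinuousAt.div ?_ ((dg_density hw).cont c z hz) (dg_pos hpos hz).ne'
    refine Complex.continuous_re.continuousAt.comp ?_
    unfold pr
    exact tendsto_finsetSum _ fun a _ => tendsto_finsetSum _ fun b _ =>
      (AA_cont hk s φ hz a b).mul (INT.smooth_cHess (hw.smooth c z hz) a b).continuousAt
  have h2 : ContinuousAt (fun y => (pr (AA s φ c (c y)) (cHess (w c) (c y))).re / dg w c (c y)) z :=
    h1.comp (f := c) (c.continuousAt hz.2)
  refine h2.congr ?_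
  filter_upwards [c.open_source.mem_nhds hz.2] with y hy
  exact (NA_eq hw hk s φ ⟨hz.1, hy⟩).symm

theorem NA_bdd [CompactSpace Z] (hw : IsCanonicalMetric w)
    (hpos : ∀ e x, At e x → (cHess (w e) (e x)).PosDef)
    (hk : k ≠ 0) (s : Sec L k) (φ : Mor L R) : ∃ C : ℝ, 0 ≤ C ∧
      (∀ (e : Chart (R + 1) Z) x, At e x → ∀ ξ : Fin (R + 1) → ℂ,
      |(pr (AA s φ e (e x)) (Matrix.vecMulVec ξ (star ξ))).re| ≤
        C * (pr (Ag w e (e x)) (Matrix.vecMulVec ξ (star ξ))).re) ∧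
      (∀ (e : Chart (R + 1) Z) x, At e x → |(pr (AA s φ e (e x)) (cHess (w e) (e x))).re| ≤
      C * dg w e (e x)) := by
  obtain ⟨C, hC⟩ := isCompact_univ.exists_bound_of_continuousOn (NA_cont hw hpos hk s φ).continuousOn
  have key : ∀ (e : Chart (R + 1) Z) x, At e x → (pr (AA s φ e (e x)) (cHess (w e) (e x))).re ≤
      max C 0 * dg w e (e x) := by
    intro e x hx
    have h1 := hC x (mem_univ x)
    rw [NA_eq hw hk s φ hx] at h1
    have h2 := (le_abs_self _).trans (h1.trans (le_max_left C 0))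
    rwa [div_le_iff₀ (dg_pos hpos hx)] at h2
  refine ⟨max C 0, le_max_right _ _, fun e x hx ξ => ?_, fun e x hx => ?_⟩
  · obtain ⟨i, hi⟩ := L.cover x
    have e1 : ∀ (a : ℂ) (B H : Matrix (Fin (R + 1)) (Fin (R + 1)) ℂ), pr (a • B) H = a * pr B H := by
      intro a B H
      simp only [pr, Matrix.smul_apply, smul_eq_mul, Finset.mul_sum]
      exact Finset.sum_congr rfl fun j _ => Finset.sum_congr rfl fun k _ => by ring
    have h0 := key e x hx
    rw [AA_eq hk s φ hx hi, e1, Complex.re_ofReal_mul] at h0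
    rw [AA_eq hk s φ hx hi, e1, pr_vv, Complex.re_ofReal_mul, Complex.ofReal_re,
      abs_of_nonneg (mul_nonneg (wt_nonneg s i x) (by positivity))]
    have h1 := cs1 (hpos e x hx) (bv φ i e (e x)) ξ
    have hd := dg_pos hpos hx
    have h3 := rank_nonneg (hpos e x hx) ξ
    refine le_of_mul_le_mul_right ?_ hd
    calc wt s i x * ‖bv φ i e (e x) ⬝ᵥ ξ‖ ^ 2 * dg w e (e x)
        = wt s i x * (‖bv φ i e (e x) ⬝ᵥ ξ‖ ^ 2 * dg w e (e x)) := by ring
      _ ≤ wt s i x * ((pr (Matrix.vecMulVec (bv φ i e (e x)) (star (bv φ i e (e x))))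
          (cHess (w e) (e x))).re *
          (pr ((cHess (w e) (e x)).adjugate)ᵀ (Matrix.vecMulVec ξ (star ξ))).re) :=
        mul_le_mul_of_nonneg_left h1 (wt_nonneg s i x)
      _ = (wt s i x * (pr (Matrix.vecMulVec (bv φ i e (e x)) (star (bv φ i e (e x))))
          (cHess (w e) (e x))).re) *
          (pr ((cHess (w e) (e x)).adjugate)ᵀ (Matrix.vecMulVec ξ (star ξ))).re := by ring
      _ ≤ (max C 0 * dg w e (e x)) *
          (pr ((cHess (w e) (e x)).adjugate)ᵀ (Matrix.vecMulVec ξ (star ξ))).re :=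
        mul_le_mul_of_nonneg_right h0 h3
      _ = _ := by rw [Ag]; ring
  · rw [abs_of_nonneg (NA_nonneg hpos s φ hk hx)]
    exact key e x hx

end

section root
variable {n : ℕ}

theorem diff_real {F : Cm n → ℂ} {z : Cm n} (h : ContDiffAt ℂ ω F z) : DifferentiableAt ℝ F z :=
  (h.differentiableAt (by simp)).restrictScalars ℝ

theorem dz_holo' {F : Cm n → ℂ} {z : Cm n} (h : ContDiffAt ℂ ω F z) (j : Fin n) :
    ContDiffAt ℂ ω (dz j F) z := by
  have h1 : dz j F =ᶠ[𝓝 z] fun y => fderiv ℂ F y (Pi.single j 1) := by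
    filter_upwards [h.eventually (by simp)] with y hy
    exact dz_of_holo (hy.differentiableAt (by simp))
  refine ContDiffAt.congr_of_eventuallyEq ?_ h1
  exact (h.fderiv_right (m := ω) (by simp)).clm_apply contDiffAt_const

theorem DD_rank {a : Fin n → Cm n → ℂ} {z : Cm n} (ha : ∀ j, ContDiffAt ℂ ω (a j) z)
    {A : Cm n → Matrix (Fin n) (Fin n) ℂ}
    (hA : A =ᶠ[𝓝 z] fun y => Matrix.of fun j k => a j y * conj (a k y)) :
    DD A z = ((‖∑ j, dz j (a j) z‖ ^ 2 : ℝ) : ℂ) := by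
  have hev : ∀ᶠ y in 𝓝 z, ∀ j, ContDiffAt ℂ ω (a j) y :=
    eventually_all.2 fun j => (ha j).eventually (by simp)
  have h1 : ∀ j k, dz j (dzb k fun y => A y j k) z = dz j (a j) z * conj (dz k (a k) z) := by
    intro j k
    have e1 : (fun y => A y j k) =ᶠ[𝓝 z] fun y => a j y * conj (a k y) := by
      filter_upwards [hA] with y hy
      rw [hy, Matrix.of_apply]
    have e2 : dzb k (fun y => A y j k) =ᶠ[𝓝 z] fun y => a j y * conj (dz k (a k) y) := by
      refine (INT.dzb_congr' e1).trans ?_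
      filter_upwards [hev] with y hy
      have d1 := diff_real (hy j)
      have d2 := diff_real (hy k)
      have d2' : DifferentiableAt ℝ (fun x => conj (a k x)) y :=
        Complex.conjCLE.differentiableAt.comp y d2
      rw [INT.dzb_mul d1 d2', INT.dzb_conj,
        INT.dzb_of_holo ((hy j).differentiableAt (by simp)), zero_mul, zero_add]
    rw [INT.dz_congr e2]
    have d3 := dz_holo' (ha k) k
    have d4 : DifferentiableAt ℝ (fun x => conj (dz k (a k) x)) z :=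
        Complex.conjCLE.differentiableAt.comp z (diff_real d3)
    rw [INT.dz_mul (diff_real (ha j)) d4, INT.dz_conj, INT.dzb_of_holo (d3.differentiableAt (by simp)), map_zero, mul_zero, add_zero]
  unfold DD
  simp only [h1]
  rw [← Complex.normSq_eq_norm_sq, ← Complex.mul_conj, map_sum, Finset.sum_mul_sum]

end root

end Vale.Agent.P284.H206.Bog
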