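import Vale.Agent.P284.H206.Bog.App3

/-!
# P284 (helper206), module BOG: on a manifold of dimension `R + 1` with positive canonical bundle the
form `s^{1/k} φ` is closed, for a section `s` of `L^k` and a morphism `φ : L → Ω^R`
-/

open scoped Manifold ContDiff Topology ComplexOrder ComplexConjugate Matrix
open Filter Set MeasureTheory

noncomputable section

namespace Vale.Agent.P284.H206.Bog

open Vale.Agent.P272.K Vale.Agent.P272.K.INT Vale.Agent.P272.KOD Vale.Agent.P284.H248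

variable {R : ℕ} {Z : Type} [TopologicalSpace Z] [ChartedSpace (Cm (R + 1)) Z]
  [IsManifold 𝓘(ℂ, Cm (R + 1)) ω Z]
  {L : LineBundle (R + 1) Z} {k K : ℕ} {w : Chart (R + 1) Z → Cm (R + 1) → ℝ}

/-- `Σ_j (f₀ ∂_j f₁ - f₁ ∂_j f₀) b_j` -/
def hq (φ : Mor L R) (f₀ f₁ : PSec (R + 1) K Z) (i : L.ι) (c : Chart (R + 1) Z)
    (ζ : Cm (R + 1)) : ℂ :=
  ∑ j, (f₀.coeff c ζ * dz j (f₁.coeff c) ζ - f₁.coeff c ζ * dz j (f₀.coeff c) ζ) * bv φ i c ζ j

omit [IsManifold 𝓘(ℂ, Cm (R + 1)) ω Z] in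
theorem hq_glue (φ : Mor L R) (f₀ f₁ : PSec (R + 1) K Z) {i i' : L.ι} {c : Chart (R + 1) Z} {z : Z}
    (hz : At c z) (hi : z ∈ L.U i) (hi' : z ∈ L.U i') :
    hq φ f₀ f₁ i' c (c z) = L.g i i' z * hq φ f₀ f₁ i c (c z) := by
  simp only [hq, bv_glue φ hz hi hi', Pi.smul_apply, smul_eq_mul, Finset.mul_sum]
  exact Finset.sum_congr rfl fun j _ => by ring

omit [IsManifold 𝓘(ℂ, Cm (R + 1)) ω Z] in
theorem coeff_change_ev (f : PSec (R + 1) K Z) {c c' : Chart (R + 1) Z} {z : Z} (hz : At c z)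
    (hz' : At c' z) : f.coeff c =ᶠ[𝓝 (c z)] fun ζ =>
      f.coeff c' (c' (c.symm ζ)) * (jacM c c' (c.symm ζ)).det ^ K := by
  filter_upwards [hz.nhds_at hz'] with ζ hζ
  have := f.change c c' (c.symm ζ) hζ.2.1 hζ.2.2
  rwa [c.right_inv hζ.1] at this

theorem hq_change (φ : Mor L R) (f₀ f₁ : PSec (R + 1) K Z) {i : L.ι} {c c' : Chart (R + 1) Z}
    {z : Z} (hz : At c z) (hz' : At c' z) (hi : z ∈ L.U i) :
    hq φ f₀ f₁ i c (c z) = hq φ f₀ f₁ i c' (c' z) * (jacM c c' z).det ^ (2 * K + 1) := by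
  set D : Cm (R + 1) → ℂ := fun ζ => (jacM c c' (c.symm ζ)).det ^ K with hD
  have hDh : ContDiffAt ℂ ω D (c z) := (jacM_det_holo hz hz').pow K
  have hDz : D (c z) = (jacM c c' z).det ^ K := by rw [hD]; simp only; rw [hz.left_inv]
  have hcz : c' (c.symm (c z)) = c' z := by rw [hz.left_inv]
  have key : ∀ f : PSec (R + 1) K Z, f.coeff c (c z) = f.coeff c' (c' z) * D (c z) ∧
      ∀ j, dz j (f.coeff c) (c z) =
        (∑ p, dz p (f.coeff c') (c' z) * jacM c c' z p j) * D (c z) +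
          f.coeff c' (c' z) * dz j D (c z) := by
    intro f
    have hev := coeff_change_ev f hz hz'
    refine ⟨?_, fun j => ?_⟩
    · rw [f.change c c' z hz hz', hDz]
    · rw [INT.dz_congr hev]
      have h1 : ContDiffAt ℂ ω (f.coeff c') (c' (c.symm (c z))) := by
        rw [hcz]; exact (f.holo c' z hz').contDiffAt
      have h2 : ContDiffAt ℂ ω (fun ζ => f.coeff c' (c' (c.symm ζ))) (c z) :=
        h1.comp (c z) (transition hz hz')
      have h3 := INT.dz_mul (i := j) (diff_real h2) (diff_real hDh)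
      rw [h3]
      have h4 := dz_comp_holo (i := j) (f := f.coeff c') (τ := fun ζ => c' (c.symm ζ)) (z := c z)
        (diff_real h1) (transition_differentiableAt hz hz')
      rw [h4]
      simp only [hcz]
      rfl
  obtain ⟨a1, a2⟩ := key f₀
  obtain ⟨b1, b2⟩ := key f₁
  have hb := bv_change φ hz hz' hi
  have hb' : ∀ p, ∑ j, jacM c c' z p j * bv φ i c (c z) j =
      (jacM c c' z).det * bv φ i c' (c' z) p := fun p => congrFun hb p
  have e1 : ∀ j, (f₀.coeff c (c z) * dz j (f₁.coeff c) (c z) -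
      f₁.coeff c (c z) * dz j (f₀.coeff c) (c z)) * bv φ i c (c z) j =
      ∑ p, D (c z) ^ 2 * ((f₀.coeff c' (c' z) * dz p (f₁.coeff c') (c' z) -
        f₁.coeff c' (c' z) * dz p (f₀.coeff c') (c' z)) *
          (jacM c c' z p j * bv φ i c (c z) j)) := by
    intro j
    rw [a1, b1, a2, b2]
    have e2 : (f₀.coeff c' (c' z) * D (c z) * ((∑ p, dz p (f₁.coeff c') (c' z) * jacM c c' z p j) *
        D (c z) + f₁.coeff c' (c' z) * dz j D (c z)) - f₁.coeff c' (c' z) * D (c z) *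
        ((∑ p, dz p (f₀.coeff c') (c' z) * jacM c c' z p j) * D (c z) +
          f₀.coeff c' (c' z) * dz j D (c z))) * bv φ i c (c z) j =
        (D (c z) ^ 2 * bv φ i c (c z) j) *
          (f₀.coeff c' (c' z) * (∑ p, dz p (f₁.coeff c') (c' z) * jacM c c' z p j) -
          f₁.coeff c' (c' z) * (∑ p, dz p (f₀.coeff c') (c' z) * jacM c c' z p j)) := by ring
    rw [e2, Finset.mul_sum, Finset.mul_sum, ← Finset.sum_sub_distrib, Finset.mul_sum]
    exact Finset.sum_congr rfl fun p _ => by ring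
  unfold hq
  simp only [e1]
  rw [Finset.sum_comm]
  simp only [← Finset.mul_sum, hb']
  rw [hDz, Finset.mul_sum, Finset.sum_mul]
  exact Finset.sum_congr rfl fun p _ => by ring

omit [IsManifold 𝓘(ℂ, Cm (R + 1)) ω Z] in
theorem hq_holo (φ : Mor L R) (f₀ f₁ : PSec (R + 1) K Z) {i : L.ι} {c : Chart (R + 1) Z} {z : Z}
    (hz : At c z) (hi : z ∈ L.U i) : ContDiffAt ℂ ω (hq φ f₀ f₁ i c) (c z) := by
  have h0 : ContDiffAt ℂ ω (f₀.coeff c) (c z) := (f₀.holo c z hz).contDiffAt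
  have h1 : ContDiffAt ℂ ω (f₁.coeff c) (c z) := (f₁.holo c z hz).contDiffAt
  unfold hq
  exact ContDiffAt.sum fun j _ => ((h0.mul (dz_holo' h1 j)).sub (h1.mul (dz_holo' h0 j))).mul
    (bv_holo φ hz hi j)

/-- the section `s · (f₀ df₁ - f₁ df₀ ∧ φ)^k` of `K_Z^{k(2K+1)}` -/
def PP (s : Sec L k) (φ : Mor L R) (f₀ f₁ : PSec (R + 1) K Z) :
    PSec (R + 1) ((2 * K + 1) * k) Z where
  coeff c ζ := s.f (ix L (c.symm ζ)) (c.symm ζ) * hq φ f₀ f₁ (ix L (c.symm ζ)) c ζ ^ k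
  holo c z hz := by
    obtain ⟨i, hi⟩ := L.cover z
    have hev : (fun ζ => s.f (ix L (c.symm ζ)) (c.symm ζ) *
        hq φ f₀ f₁ (ix L (c.symm ζ)) c ζ ^ k) =ᶠ[𝓝 (c z)]
        fun ζ => s.f i (c.symm ζ) * hq φ f₀ f₁ i c ζ ^ k := by
      filter_upwards [U_ev hz hi] with ζ hζ
      have hj := ix_mem L (c.symm ζ)
      have h2 := hq_glue φ f₀ f₁ hζ.2.1 hζ.2.2 hj
      rw [c.right_inv hζ.1] at h2
      rw [h2, s.change i _ _ hζ.2.2 hj]
      ring
    refine AnalyticAt.congr ?_ hev.symm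
    exact ((s.holo i c z hz hi).mul ((hq_holo φ f₀ f₁ hz hi).pow k)).analyticAt
  change c c' z hz hz' := by
    rw [hz.left_inv, hz'.left_inv, hq_change φ f₀ f₁ hz hz' (ix_mem L z), pow_mul]
    ring

theorem PP_coeff (s : Sec L k) (φ : Mor L R) (f₀ f₁ : PSec (R + 1) K Z) {i : L.ι}
    {c : Chart (R + 1) Z} {z : Z} (hz : At c z) (hi : z ∈ L.U i) :
    (PP s φ f₀ f₁).coeff c (c z) = s.f i z * hq φ f₀ f₁ i c (c z) ^ k := by
  show s.f (ix L (c.symm (c z))) (c.symm (c z)) *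
    hq φ f₀ f₁ (ix L (c.symm (c z))) c (c z) ^ k = _
  rw [hz.left_inv]
  have hj := ix_mem L z
  rw [hq_glue φ f₀ f₁ hz hi hj, s.change i _ _ hi hj]
  ring

/-- local roots of holomorphic functions -/
theorem exists_root {n : ℕ} {f : Cm n → ℂ} {z : Cm n} (hf : ContDiffAt ℂ ω f z) (h0 : f z ≠ 0)
    (hk : k ≠ 0) : ∃ g : Cm n → ℂ, ContDiffAt ℂ ω g z ∧ ∀ᶠ ζ in 𝓝 z, g ζ ^ k = f ζ := by
  obtain ⟨c0, hc0⟩ := IsAlgClosed.exists_pow_nat_eq (f z) (Nat.pos_of_ne_zero hk)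
  have hk' : (k : ℂ) ≠ 0 := by exact_mod_cast hk
  refine ⟨fun ζ => c0 * Complex.exp (Complex.log (f ζ / f z) / k), ?_, ?_⟩
  · have h1 : AnalyticAt ℂ (fun ζ => f ζ / f z) z := hf.analyticAt.div analyticAt_const h0
    have h2 : AnalyticAt ℂ (fun ζ => Complex.log (f ζ / f z)) z := by
      refine h1.clog ?_
      rw [div_self h0]
      exact Complex.one_mem_slitPlane
    exact (analyticAt_const.mul (h2.div analyticAt_const hk').cexp').contDiffAt
  · filter_upwards [hf.continuousAt.eventually_ne h0] with ζ hζ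
    rw [mul_pow, hc0, ← Complex.exp_nat_mul, mul_div_cancel₀ _ hk', Complex.exp_log (div_ne_zero hζ h0)]
    field_simp

omit [IsManifold 𝓘(ℂ, Cm (R + 1)) ω Z] in
theorem DD_AA (hk : k ≠ 0) (s : Sec L k) (φ : Mor L R) {c : Chart (R + 1) Z} {z : Z}
    (hz : At c z) {i : L.ι} (hi : z ∈ L.U i) {g : Cm (R + 1) → ℂ} (hg : ContDiffAt ℂ ω g (c z))
    (hgk : ∀ᶠ ζ in 𝓝 (c z), g ζ ^ k = s.f i (c.symm ζ)) :
    DD (AA s φ c) (c z) = ((‖∑ j, dz j (fun ζ => g ζ * bv φ i c ζ j) (c z)‖ ^ 2 : ℝ) : ℂ) := by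
  refine DD_rank (a := fun j ζ => g ζ * bv φ i c ζ j) (fun j => hg.mul (bv_holo φ hz hi j)) ?_
  filter_upwards [AA_ev hk s φ hz hi, hgk] with ζ h1 h2
  rw [h1]
  have h3 : wt s i (c.symm ζ) = ‖g ζ‖ ^ 2 := by
    rw [wt, ← h2, norm_pow, ← pow_mul, mul_comm k 2, pow_mul,
      Real.pow_rpow_inv_natCast (by positivity) hk]
  ext a b
  rw [h3, ← Complex.normSq_eq_norm_sq, ← Complex.mul_conj]
  simp only [Matrix.smul_apply, Matrix.vecMulVec_apply, Pi.star_apply, smul_eq_mul,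
    RCLike.star_def, Matrix.of_apply, map_mul]
  ring

theorem core [T2Space Z] [CompactSpace Z] [ConnectedSpace Z] (hw : IsCanonicalMetric w)
    (hpos : ∀ e x, At e x → (cHess (w e) (e x)).PosDef) (hk : k ≠ 0) (s : Sec L k) (φ : Mor L R)
    {V : Set Z} (hV : IsOpen V) (hne : V.Nonempty) :
    ∃ z ∈ V, ∃ c : Chart (R + 1) Z, At c z ∧ ∀ i, z ∈ L.U i → s.f i z ≠ 0 →
      ∀ g : Cm (R + 1) → ℂ, ContDiffAt ℂ ω g (c z) →
      (∀ᶠ ζ in 𝓝 (c z), g ζ ^ k = s.f i (c.symm ζ)) →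
      ∑ j, dz j (fun ζ => g ζ * bv φ i c ζ j) (c z) = 0 := by
  by_cases H : ∃ (z₂ : Z) (c : Chart (R + 1) Z) (i : L.ι), At c z₂ ∧ z₂ ∈ L.U i ∧ s.f i z₂ ≠ 0 ∧
      bv φ i c (c z₂) ≠ 0
  · obtain ⟨z₂, c₂, i, hz₂, hi, hs0, hb0⟩ := H
    -- the jets
    obtain ⟨K, hK1, f₀, f, hjet, -⟩ := H451.jets (R + 1) Z hw hpos z₂ ∅ (by simp)
    set c := chartAt (Cm (R + 1)) z₂ with hc
    have hz : At c z₂ := ⟨chart_mem_atlas _ _, mem_chart_source _ _⟩
    have hb1 : bv φ i c (c z₂) ≠ 0 := by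
      intro h0
      have h := bv_change φ hz₂ hz hi
      rw [h0, smul_zero] at h
      apply hb0
      have hu := jacM_isUnit hz₂ hz
      have : ((jacM c₂ c z₂)⁻¹) *ᵥ (jacM c₂ c z₂ *ᵥ bv φ i c₂ (c₂ z₂)) = 0 := by
        rw [h, Matrix.mulVec_zero]
      rwa [Matrix.mulVec_mulVec, Matrix.nonsing_inv_mul _ hu, Matrix.one_mulVec] at this
    obtain ⟨a, ha⟩ : ∃ a, hq φ f₀ (f a) i c (c z₂) ≠ 0 := by
      by_contra hcon
      push Not at hcon
      apply hb1
      have h0 : f₀.coeff c (c z₂) ≠ 0 := hjet.1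
      refine hjet.2 ?_
      rw [map_zero]
      have hd : ∀ a, DifferentiableAt ℂ (fun ζ => (f a).coeff c ζ / f₀.coeff c ζ) (c z₂) := fun a =>
        (((f a).holo c z₂ hz).div (f₀.holo c z₂ hz) h0).differentiableAt
      funext a
      have e1 : fderiv ℂ (ratio f₀ f c) (c z₂) (bv φ i c (c z₂)) a =
          fderiv ℂ (fun ζ => (f a).coeff c ζ / f₀.coeff c ζ) (c z₂) (bv φ i c (c z₂)) := by
        have : DifferentiableAt ℂ (ratio f₀ f c) (c z₂) := differentiableAt_pi.2 hd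
        have h2 := fderiv_apply (𝕜 := ℂ) this a
        rw [show (fun ζ => (f a).coeff c ζ / f₀.coeff c ζ) = fun ζ => ratio f₀ f c ζ a from rfl, h2]
        rfl
      rw [e1]
      have h3 := hcon a
      have h4 : ∀ j, dz j (fun ζ => (f a).coeff c ζ / f₀.coeff c ζ) (c z₂) =
          (f₀.coeff c (c z₂) * dz j ((f a).coeff c) (c z₂) -
            (f a).coeff c (c z₂) * dz j (f₀.coeff c) (c z₂)) / f₀.coeff c (c z₂) ^ 2 := by
        intro j
        have hev : (f a).coeff c =ᶠ[𝓝 (c z₂)] fun ζ =>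
            ((f a).coeff c ζ / f₀.coeff c ζ) * f₀.coeff c ζ := by
          filter_upwards [(f₀.holo c z₂ hz).continuousAt.eventually_ne h0] with ζ hζ
          field_simp
        have hd0 := (f₀.holo c z₂ hz).differentiableAt
        have h6 := INT.dz_congr (i := j) hev
        have h7 := INT.dz_mul (i := j) ((hd a).restrictScalars ℝ) (hd0.restrictScalars ℝ)
        rw [h7] at h6
        rw [h6]
        field_simp
        ring
      have h5 : fderiv ℂ (fun ζ => (f a).coeff c ζ / f₀.coeff c ζ) (c z₂) (bv φ i c (c z₂)) =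
          ∑ j, bv φ i c (c z₂) j * dz j (fun ζ => (f a).coeff c ζ / f₀.coeff c ζ) (c z₂) := by
        have h6 : bv φ i c (c z₂) = ∑ j, bv φ i c (c z₂) j • (Pi.single j 1 : Cm (R + 1)) := by
          funext l
          simp [Finset.sum_apply, Pi.single_apply]
        conv_lhs => rw [h6]
        rw [map_sum]
        refine Finset.sum_congr rfl fun j _ => ?_
        rw [map_smul, smul_eq_mul, INT.dz_of_holo (hd a)]
      rw [h5]
      show _ = (0 : ℂ)
      simp only [h4]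
      rw [hq] at h3
      have h7 : ∑ j, bv φ i c (c z₂) j * ((f₀.coeff c (c z₂) * dz j ((f a).coeff c) (c z₂) -
            (f a).coeff c (c z₂) * dz j (f₀.coeff c) (c z₂)) / f₀.coeff c (c z₂) ^ 2) =
          (∑ j, (f₀.coeff c (c z₂) * dz j ((f a).coeff c) (c z₂) -
            (f a).coeff c (c z₂) * dz j (f₀.coeff c) (c z₂)) * bv φ i c (c z₂) j) /
              f₀.coeff c (c z₂) ^ 2 := by
        rw [Finset.sum_div]
        exact Finset.sum_congr rfl fun j _ => by ring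
      rw [h7, h3, zero_div]
    set P := PP s φ f₀ (f a) with hP
    have hPne : ∃ e x, At e x ∧ P.coeff e (e x) ≠ 0 := by
      refine ⟨c, z₂, hz, ?_⟩
      rw [hP, PP_coeff s φ f₀ (f a) hz hi]
      exact mul_ne_zero hs0 (pow_ne_zero _ ha)
    have hsne : ∀ (e : Chart (R + 1) Z) (x : Z), At e x → GG P w x ≠ 0 → ∀ i, x ∈ L.U i → s.f i x ≠ 0 := by
      intro e x hx hG i hi h0
      rw [GG_ne hw P hx, hP, PP_coeff s φ f₀ (f a) hx hi, h0, zero_mul] at hG
      exact hG rfl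
    -- the form
    obtain ⟨C, hC, hb1', hb2'⟩ := NA_bdd hw hpos hk s φ
    have hTF : TF (ZS P w) (AA s φ) := by
      refine ⟨fun e x hx hxS a b => ?_, fun e e' x hx hx' _ => AA_change hk s φ e e' x hx hx'⟩
      obtain ⟨i, hi⟩ := L.cover x
      exact AA_smooth hk s φ hx hi (hsne e x hx hxS i hi) a b
    have hDD : ∀ (e : Chart (R + 1) Z) (x : Z), At e x → GG P w x ≠ 0 → 0 ≤ (DD (AA s φ e) (e x)).re := by
      intro e x hx hG
      obtain ⟨i, hi⟩ := L.cover x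
      have hs : s.f i (e.symm (e x)) ≠ 0 := by rw [hx.left_inv]; exact hsne e x hx hG i hi
      obtain ⟨g, hg, hgk⟩ := exists_root (s.holo i e x hx hi) hs hk
      rw [DD_AA hk s φ hx hi hg hgk, Complex.ofReal_re]
      positivity
    -- a point of `V`
    obtain ⟨z', hz'V⟩ := hne
    have hz'c : At (chartAt (Cm (R + 1)) z') z' := ⟨chart_mem_atlas _ _, mem_chart_source _ _⟩
    have hVev : ∀ᶠ ζ in 𝓝 (chartAt (Cm (R + 1)) z' z'), (chartAt (Cm (R + 1)) z').symm ζ ∈ V :=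
      ev_symm hz'c (hV.mem_nhds hz'V)
    obtain ⟨ζ, hζ1, hζ2⟩ := ((GG_dense hw P hPne hz'c).and_eventually hVev).exists
    set z := (chartAt (Cm (R + 1)) z').symm ζ with hzdef
    obtain ⟨i₀, hi₀⟩ : ∃ i₀, 0 < (part (R + 1) Z).ρ i₀ z := by
      by_contra hcon
      push Not at hcon
      have h1 := (part (R + 1) Z).sum z
      have h2 : ∑ i, (part (R + 1) Z).ρ i z ≤ 0 := Finset.sum_nonpos fun i _ => hcon i
      linarith
    have hAt : At ((part (R + 1) Z).e i₀) z := ⟨(part (R + 1) Z).mem i₀,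
      (part (R + 1) Z).supp i₀ (subset_tsupport _ (by
        simp only [Function.mem_support]; exact hi₀.ne'))⟩
    refine ⟨z, hζ2, (part (R + 1) Z).e i₀, hAt, fun i hi _ g hg hgk => ?_⟩
    have h0 := DD_zero hw hpos P hPne hC hTF (fun e x hx _ => hb1' e x hx)
      (fun e x hx _ => hb2' e x hx) hDD hζ1 hi₀
    rw [DD_AA hk s φ hAt hi hg hgk, Complex.ofReal_re] at h0
    exact norm_eq_zero.1 (by simpa using h0)
  · push Not at H
    obtain ⟨z, hzV⟩ := hne
    set c := chartAt (Cm (R + 1)) z with hc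
    have hz : At c z := ⟨chart_mem_atlas _ _, mem_chart_source _ _⟩
    refine ⟨z, hzV, c, hz, fun i hi h0 g hg hgk => ?_⟩
    have hev : ∀ᶠ ζ in 𝓝 (c z), bv φ i c ζ = 0 := by
      have h1 : ContinuousAt (fun ζ => s.f i (c.symm ζ)) (c z) := (s.holo i c z hz hi).continuousAt
      have h2 := h1.eventually_ne (show s.f i (c.symm (c z)) ≠ 0 by rwa [hz.left_inv])
      filter_upwards [U_ev hz hi, h2] with ζ h3 h4
      have := H (c.symm ζ) c i h3.2.1 h3.2.2 h4
      rwa [c.right_inv h3.1] at this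
    refine Finset.sum_eq_zero fun j _ => ?_
    have : (fun ζ => g ζ * bv φ i c ζ j) =ᶠ[𝓝 (c z)] fun _ => 0 := by
      filter_upwards [hev] with ζ hζ
      rw [hζ, Pi.zero_apply, mul_zero]
    rw [INT.dz_congr this, INT.dz_const]

end Vale.Agent.P284.H206.Bog
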