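import Mathlib.Analysis.SpecialFunctions.SmoothTransition
import Mathlib.Analysis.SpecialFunctions.Log.Deriv
import Mathlib.Analysis.Calculus.Deriv.Shift
import Mathlib.Analysis.Complex.ExponentialBounds

/-!
# P284 (helper206), module BOG: the cut-off functions
-/

open scoped ContDiff Topology
open Filter Set

noncomputable section

namespace Vale.Agent.P284.H206.Bog

/-- a smooth step: `0` for `t ≤ 0`, `1` for `t ≥ 1` -/
def sT (t : ℝ) : ℝ := Real.smoothTransition t

theorem sT_contDiff : ContDiff ℝ ∞ sT := Real.smoothTransition.contDiff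

theorem sT_nonneg (t : ℝ) : 0 ≤ sT t := Real.smoothTransition.nonneg t

theorem sT_zero {t : ℝ} (h : t ≤ 0) : sT t = 0 := Real.smoothTransition.zero_of_nonpos h

theorem sT_one {t : ℝ} (h : 1 ≤ t) : sT t = 1 := Real.smoothTransition.one_of_one_le h

theorem deriv_smooth : ContDiff ℝ ∞ (deriv sT) := by
  have := sT_contDiff
  exact (contDiff_infty_iff_deriv.1 this).2

theorem deriv2_smooth : ContDiff ℝ ∞ (deriv (deriv sT)) :=
  (contDiff_infty_iff_deriv.1 deriv_smooth).2

/-- off `[0, 1]` the function is locally constant -/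
theorem deriv_off {t : ℝ} (h : t < 0 ∨ 1 < t) : deriv sT =ᶠ[𝓝 t] fun _ => 0 := by
  rcases h with h | h
  · filter_upwards [isOpen_Iio.mem_nhds h] with s hs
    have : sT =ᶠ[𝓝 s] fun _ => 0 := by
      filter_upwards [isOpen_Iio.mem_nhds hs] with r hr
      exact sT_zero (le_of_lt hr)
    rw [this.deriv_eq, deriv_const]
  · filter_upwards [isOpen_Ioi.mem_nhds h] with s hs
    have : sT =ᶠ[𝓝 s] fun _ => 1 := by
      filter_upwards [isOpen_Ioi.mem_nhds hs] with r hr
      exact sT_one (le_of_lt hr)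
    rw [this.deriv_eq, deriv_const]

theorem deriv_off' {t : ℝ} (h : t ∉ Icc (0 : ℝ) 1) : deriv sT t = 0 ∧ deriv (deriv sT) t = 0 := by
  have h1 : t < 0 ∨ 1 < t := by
    by_contra hc
    push Not at hc
    exact h ⟨hc.1, hc.2⟩
  have h2 := deriv_off h1
  exact ⟨h2.self_of_nhds, by rw [h2.deriv_eq, deriv_const]⟩

theorem exists_bound : ∃ K : ℝ, 0 ≤ K ∧ ∀ t, |deriv sT t| ≤ K ∧ |deriv (deriv sT) t| ≤ K := by
  obtain ⟨K1, h1⟩ := (isCompact_Icc (a := (0 : ℝ)) (b := 1)).exists_bound_of_continuousOn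
    deriv_smooth.continuous.continuousOn
  obtain ⟨K2, h2⟩ := (isCompact_Icc (a := (0 : ℝ)) (b := 1)).exists_bound_of_continuousOn
    deriv2_smooth.continuous.continuousOn
  refine ⟨max 0 (max K1 K2), le_max_left _ _, fun t => ?_⟩
  by_cases ht : t ∈ Icc (0 : ℝ) 1
  · exact ⟨(h1 t ht).trans ((le_max_left _ _).trans (le_max_right _ _)),
      (h2 t ht).trans ((le_max_right _ _).trans (le_max_right _ _))⟩
  · rw [(deriv_off' ht).1, (deriv_off' ht).2, abs_zero]
    exact ⟨le_max_left _ _, le_max_left _ _⟩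

/-- the cut-off as a function of `log G` -/
def TT (j : ℕ) (t : ℝ) : ℝ := sT (t / j + 2)

theorem TT_deriv (j : ℕ) (t : ℝ) :
    HasDerivAt (TT j) (deriv sT (t / j + 2) * (1 / j)) t := by
  have h1 : HasDerivAt (fun s : ℝ => s / j + 2) (1 / j) t := by
    simpa using ((hasDerivAt_id t).div_const (j : ℝ)).add_const 2
  have h2 : HasDerivAt sT (deriv sT (t / j + 2)) (t / j + 2) :=
    (sT_contDiff.differentiable (by simp) _).hasDerivAt
  exact h2.comp t h1

theorem TT_deriv2 (j : ℕ) (t : ℝ) :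
    HasDerivAt (fun s => deriv sT (s / j + 2) * (1 / j))
      (deriv (deriv sT) (t / j + 2) * (1 / j) * (1 / j)) t := by
  have h1 : HasDerivAt (fun s : ℝ => s / j + 2) (1 / j) t := by
    simpa using ((hasDerivAt_id t).div_const (j : ℝ)).add_const 2
  have h2 : HasDerivAt (deriv sT) (deriv (deriv sT) (t / j + 2)) (t / j + 2) :=
    (deriv_smooth.differentiable (by simp) _).hasDerivAt
  exact (h2.comp t h1).mul_const _

/-- the cut-off as a function of `G` -/
def cut (j : ℕ) (t : ℝ) : ℝ := if t ≤ 0 then 0 else TT j (Real.log t)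

theorem cut_nonneg (j : ℕ) (t : ℝ) : 0 ≤ cut j t := by
  unfold cut
  split_ifs
  · exact le_rfl
  · exact sT_nonneg _

theorem cut_zero {j : ℕ} (hj : 0 < j) {t : ℝ} (h : t < Real.exp (-(2 * j))) : cut j t = 0 := by
  unfold cut
  split_ifs with h0
  · rfl
  · push Not at h0
    apply sT_zero
    have hj' : (0 : ℝ) < j := by exact_mod_cast hj
    have h1 : Real.log t < -(2 * j) := by
      rw [Real.log_lt_iff_lt_exp h0]; exact h
    have h2 : Real.log t / j ≤ -2 := by
      rw [div_le_iff₀ hj']; linarith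
    linarith

theorem cut_eq {j : ℕ} {t : ℝ} (h : 0 < t) : cut j t = TT j (Real.log t) := by
  rw [cut, if_neg (not_le.2 h)]

theorem cut_one {j : ℕ} (hj : 0 < j) {t : ℝ} (h : Real.exp (-j) ≤ t) : cut j t = 1 := by
  have h0 : 0 < t := (Real.exp_pos _).trans_le h
  rw [cut_eq h0, TT]
  apply sT_one
  have hj' : (0 : ℝ) < j := by exact_mod_cast hj
  have h1 : -(j : ℝ) ≤ Real.log t := by
    rw [Real.le_log_iff_exp_le h0]; exact h
  have h2 : -1 ≤ Real.log t / j := by
    rw [le_div_iff₀ hj']; linarith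
  linarith

theorem cut_contDiff {j : ℕ} (hj : 0 < j) : ContDiff ℝ ∞ (cut j) := by
  rw [contDiff_iff_contDiffAt]
  intro t
  by_cases h : t < Real.exp (-(2 * j))
  · have : cut j =ᶠ[𝓝 t] fun _ => 0 := by
      filter_upwards [isOpen_Iio.mem_nhds h] with s hs
      exact cut_zero hj hs
    exact contDiffAt_const.congr_of_eventuallyEq this
  · have ht : 0 < t := (Real.exp_pos _).trans_le (not_lt.1 h)
    have : cut j =ᶠ[𝓝 t] fun s => sT (Real.log s / j + 2) := by
      filter_upwards [isOpen_Ioi.mem_nhds ht] with s hs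
      exact cut_eq hs
    refine ContDiffAt.congr_of_eventuallyEq ?_ this
    exact sT_contDiff.contDiffAt.comp t
      (((contDiffAt_id.log ht.ne').div_const _).add contDiffAt_const)

/-- the functions `log (e^t + δ)` -/
def ps (δ t : ℝ) : ℝ := Real.log (Real.exp t + δ)

def ps1 (δ t : ℝ) : ℝ := Real.exp t / (Real.exp t + δ)

def ps2 (δ t : ℝ) : ℝ := δ * Real.exp t / (Real.exp t + δ) ^ 2

theorem ps_deriv {δ : ℝ} (hδ : 0 < δ) (t : ℝ) : HasDerivAt (ps δ) (ps1 δ t) t := by
  have h0 : Real.exp t + δ ≠ 0 := by positivity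
  exact ((Real.hasDerivAt_exp t).add_const δ).log h0

theorem ps_deriv2 {δ : ℝ} (hδ : 0 < δ) (t : ℝ) : HasDerivAt (ps1 δ) (ps2 δ t) t := by
  have h0 : Real.exp t + δ ≠ 0 := by positivity
  have h1 := (Real.hasDerivAt_exp t).div ((Real.hasDerivAt_exp t).add_const δ) h0
  have h2 : (Real.exp t * (Real.exp t + δ) - Real.exp t * Real.exp t) / (Real.exp t + δ) ^ 2 =
      ps2 δ t := by
    rw [ps2]; congr 1; ring
  rw [h2] at h1
  exact h1

theorem ps1_le {δ : ℝ} (hδ : 0 < δ) (t : ℝ) : ps1 δ t ≤ 1 := by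
  have := Real.exp_pos t
  rw [ps1, div_le_one (by positivity)]
  linarith

theorem ps1_nonneg {δ : ℝ} (hδ : 0 < δ) (t : ℝ) : 0 ≤ ps1 δ t := by
  have := Real.exp_pos t
  unfold ps1; positivity

theorem ps2_nonneg {δ : ℝ} (hδ : 0 < δ) (t : ℝ) : 0 ≤ ps2 δ t := by
  have := Real.exp_pos t
  unfold ps2; positivity

/-- lower bound for the second derivative -/
theorem ps2_lower {m t : ℝ} (h1 : -m ≤ t) (h2 : t ≤ -m + 1) : 1 ≤ 16 * ps2 (Real.exp (-m)) t := by
  set δ := Real.exp (-m) with hδ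
  have hδ0 : 0 < δ := Real.exp_pos _
  set x := Real.exp (t + m) with hx
  have hx1 : 1 ≤ x := Real.one_le_exp (by linarith)
  have hx2 : x ≤ 4 := by
    have : x ≤ Real.exp 1 := Real.exp_le_exp.2 (by linarith)
    have h3 := Real.exp_one_lt_three
    linarith
  have he : Real.exp t = x * δ := by
    rw [hx, hδ, ← Real.exp_add]; congr 1; ring
  have h4 : ps2 δ t = x / (x + 1) ^ 2 := by
    rw [ps2, he]
    have : x * δ + δ = δ * (x + 1) := by ring
    rw [this]
    field_simp
  rw [h4]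
  have h5 : 0 < (x + 1) ^ 2 := by positivity
  rw [← mul_div_assoc, le_div_iff₀ h5]
  nlinarith

end Vale.Agent.P284.H206.Bog
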