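import Vale.Agent.P284.H206.Bog.Pull
import Vale.Agent.P284.H206.BogS

/-!
# P284 (helper206), module BOG: the cofactors of a Jacobian matrix
-/

open scoped Manifold ContDiff Topology ComplexOrder ComplexConjugate Matrix
open Filter Set

noncomputable section

namespace Vale.Agent.P284.H206.Bog

open Vale.Agent.P272.K Vale.Agent.P284.H248

variable {R k : ℕ}

/-- the cofactors of the Jacobian matrix -/
def kap (B : Cm (R + 1) → Cm R) (j : Fin (R + 1)) (ζ : Cm (R + 1)) : ℂ :=
  (-1) ^ (j : ℕ) * (Matrix.of fun (l a : Fin R) => dz (j.succAbove a) (fun y => B y l) ζ).det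

/-- the map `(F, B)` -/
def cns (F : Cm (R + 1) → ℂ) (B : Cm (R + 1) → Cm R) (y : Cm (R + 1)) : Cm (R + 1) :=
  Fin.cons (F y) (B y)

/-- the transposed Jacobian matrix -/
def jt (Φ : Cm (R + 1) → Cm (R + 1)) (ζ : Cm (R + 1)) : Matrix (Fin (R + 1)) (Fin (R + 1)) ℂ :=
  Matrix.of fun r l => dz r (fun y => Φ y l) ζ

theorem sub_jt (F : Cm (R + 1) → ℂ) (B : Cm (R + 1) → Cm R) (j : Fin (R + 1)) (ζ : Cm (R + 1)) :
    ((jt (cns F B) ζ).submatrix j.succAbove (Fin.succAbove 0)).det =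
      (Matrix.of fun (l a : Fin R) => dz (j.succAbove a) (fun y => B y l) ζ).det := by
  rw [← Matrix.det_transpose]
  congr 1

theorem det_jt (F : Cm (R + 1) → ℂ) (B : Cm (R + 1) → Cm R) (ζ : Cm (R + 1)) :
    (jt (cns F B) ζ).det = ∑ j, dz j F ζ * kap B j ζ := by
  rw [Matrix.det_succ_column _ 0]
  refine Finset.sum_congr rfl fun j _ => ?_
  rw [sub_jt, kap]
  have : jt (cns F B) ζ j 0 = dz j F ζ := rfl
  rw [this, Fin.val_zero, add_zero]
  ring

theorem det_update (F : Cm (R + 1) → ℂ) (B : Cm (R + 1) → Cm R) (ζ : Cm (R + 1)) (j : Fin (R + 1))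
    (c : ℂ) : ((jt (cns F B) ζ).updateRow j (fun l => c * (Pi.single 0 1 : Cm (R + 1)) l)).det =
      c * kap B j ζ := by
  rw [Matrix.det_succ_row _ j, Finset.sum_eq_single 0]
  · rw [Matrix.updateRow_self]
    have : (((jt (cns F B) ζ).updateRow j (fun l => c * (Pi.single 0 1 : Cm (R + 1)) l)).submatrix
        j.succAbove (Fin.succAbove 0)) = (jt (cns F B) ζ).submatrix j.succAbove (Fin.succAbove 0) := by
      ext a l
      simp only [Matrix.submatrix_apply]
      rw [Matrix.updateRow_ne (Fin.succAbove_ne j a)]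
    rw [this, sub_jt, kap]
    simp only [Fin.val_zero, add_zero, Pi.single_eq_same, mul_one]
    ring
  · intro l _ hl
    rw [Matrix.updateRow_self]
    simp [hl]
  · intro h; exact absurd (Finset.mem_univ 0) h

theorem piola_ne {F : Cm (R + 1) → ℂ} {B : Cm (R + 1) → Cm R} {G : Cm (R + 1) → ℂ}
    {ζ : Cm (R + 1)} (hG : ContDiffAt ℂ ω G ζ) (hB : ContDiffAt ℂ ω B ζ)
    (hGF : ∀ᶠ y in 𝓝 ζ, G y ^ k = F y)
    (hS : ∑ j, dz j (fun y => G y * kap B j y) ζ = 0) : (jt (cns F B) ζ).det = 0 := by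
  have hF : ContDiffAt ℂ ω F ζ := (hG.pow k).congr_of_eventuallyEq (by
    filter_upwards [hGF] with y hy; exact hy.symm)
  have hc : ∀ l, ContDiffAt ℂ ω (fun y => cns F B y l) ζ := by
    intro l
    refine Fin.cases ?_ (fun a => ?_) l
    · exact hF
    · exact contDiffAt_pi.1 hB a
  have hGd : DifferentiableAt ℂ G ζ := hG.differentiableAt (by simp)
  have h1 := INT.piola (M := jt (cns F B)) (a := fun y l => G y * (Pi.single 0 1 : Cm (R + 1)) l)
    (z := ζ) (fun i j => diff_real (dz_holo' (hc j) i))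
    (fun l => (diff_real hG).mul (differentiableAt_const _))
    (fun i j l => by
      have h2 : ContDiffAt ℝ 2 (fun y => cns F B y l) ζ :=
        ((hc l).restrict_scalars ℝ).of_le (by exact le_top)
      exact INT.dz_dz_comm h2)
  simp only [det_update] at h1
  rw [hS] at h1
  have h2 : ∀ r l, dz r (fun y => G y * (Pi.single 0 1 : Cm (R + 1)) l) ζ =
      dz r G ζ * (Pi.single 0 1 : Cm (R + 1)) l := by
    intro r l
    rw [INT.dz_mul (diff_real hG) (differentiableAt_const _), INT.dz_const, mul_zero, add_zero]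
  simp only [h2, det_update] at h1
  -- `∂F = k G^{k-1} ∂G`
  have h3 : ∀ j, dz j F ζ = k * G ζ ^ (k - 1) * dz j G ζ := by
    intro j
    have h4 : F =ᶠ[𝓝 ζ] fun y => G y ^ k := by
      filter_upwards [hGF] with y hy; exact hy.symm
    have h5 : HasFDerivAt (fun y => G y ^ k) ((k * G ζ ^ (k - 1)) • fderiv ℂ G ζ) ζ := by
      have := hGd.hasFDerivAt.pow k
      simpa using this
    rw [INT.dz_congr h4, INT.dz_of_holo h5.differentiableAt, h5.fderiv, INT.dz_of_holo hGd]
    simp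
  rw [det_jt]
  simp only [h3]
  have h6 : ∑ j, (k : ℂ) * G ζ ^ (k - 1) * dz j G ζ * kap B j ζ =
      k * G ζ ^ (k - 1) * ∑ j, dz j G ζ * kap B j ζ := by
    rw [Finset.mul_sum]
    exact Finset.sum_congr rfl fun j _ => by ring
  rw [h6, ← h1, mul_zero]

/-- bijective derivative and the Jacobian determinant -/
theorem jt_det_ne {Φ : Cm (R + 1) → Cm (R + 1)} {ζ : Cm (R + 1)} (hΦ : DifferentiableAt ℂ Φ ζ)
    (hb : Function.Injective (fderiv ℂ Φ ζ)) : (jt Φ ζ).det ≠ 0 := by
  intro h0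
  have h1 : (jmat Φ ζ).det = 0 := by
    rw [← Matrix.det_transpose]
    exact h0
  obtain ⟨v, hv, hv0⟩ := Matrix.exists_mulVec_eq_zero_iff.2 h1
  apply hv
  apply hb
  rw [map_zero]
  funext p
  rw [jmat_mulVec hΦ]
  exact congrFun hv0 p

end Vale.Agent.P284.H206.Bog
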