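import Vale.Agent.P284.H206.Bog.Fin1
import Vale.Agent.P284.H221.SigS

/-!
# P284 (helper206), module BOG: the main step
-/

open scoped Manifold ContDiff Topology ComplexOrder ComplexConjugate Matrix
open Filter Set

noncomputable section

namespace Vale.Agent.P284.H206.Bog

open Vale.Agent.P272.K Vale.Agent.P284.H248 Vale.Agent.P284.H221 Vale.Agent.P284.H998

variable {n R : ℕ} {X : Type} [TopologicalSpace X] [ChartedSpace (Cm n) X]
  [IsManifold 𝓘(ℂ, Cm n) ω X] {L : LineBundle n X}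

/-- the form of a decomposable morphism along a map -/
theorem bv_pull {Z : Type} [TopologicalSpace Z] [ChartedSpace (Cm (R + 1)) Z]
    [IsManifold 𝓘(ℂ, Cm (R + 1)) ω Z] {j : Z → X}
    (hj : ContMDiff 𝓘(ℂ, Cm (R + 1)) 𝓘(ℂ, Cm n) ω j) (φ : Mor L R)
    {i : L.ι} {e : Chart n X} {c : Chart (R + 1) Z} {z : Z} (hz : At c z) (he : At e (j z))
    (hi : j z ∈ L.U i) {U : Cm n → ℂ} {b : Cm n → Cm R} (hb : AnalyticAt ℂ b (e (j z)))
    (hnf : ∀ ξ : Fin R → Cm n, φ.form i e (e (j z)) ξ = U (e (j z)) *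
      (Matrix.of fun i l => fderiv ℂ b (e (j z)) (ξ l) i).det) (a : Fin (R + 1)) :
    bv (pbM hj φ) i c (c z) a =
      U (e (j z)) * kap (fun ζ => b (e (j (c.symm ζ)))) a (c z) := by
  have h0 : bv (pbM hj φ) i c (c z) a =
      (-1) ^ (a : ℕ) * pbF φ j i e c (c z) (fun a' => Pi.single (a.succAbove a') 1) := by
    rw [← pbM_form hj φ hz he hi]
    rfl
  rw [h0, pbF_apply, hz.left_inv, hnf, kap]
  have h1 : ∀ (l : Fin R) (a' : Fin R),
      dz (a.succAbove a') (fun y => (fun ζ => b (e (j (c.symm ζ)))) y l) (c z) =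
      fderiv ℂ b (e (j z)) (fderiv ℂ (fun ζ' => e (j (c.symm ζ'))) (c z)
        (Pi.single (a.succAbove a') 1)) l := by
    intro l a'
    have hbd : DifferentiableAt ℂ b ((fun ζ => e (j (c.symm ζ))) (c z)) := by
      show DifferentiableAt ℂ b (e (j (c.symm (c z))))
      rw [hz.left_inv]; exact hb.differentiableAt
    have hjd := jc_diff hj hz he
    have hd : DifferentiableAt ℂ (fun ζ => b (e (j (c.symm ζ)))) (c z) := hbd.comp (c z) hjd
    have h2 := fderiv_comp (𝕜 := ℂ) (c z) hbd hjd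
    have h3 : DifferentiableAt ℂ (fun y => (fun ζ => b (e (j (c.symm ζ)))) y l) (c z) :=
      differentiableAt_pi.1 hd l
    rw [INT.dz_of_holo h3, fderiv_apply (𝕜 := ℂ) hd l]
    have h4 : fderiv ℂ (fun ζ => b (e (j (c.symm ζ)))) (c z) =
        (fderiv ℂ b ((fun ζ => e (j (c.symm ζ))) (c z))).comp
          (fderiv ℂ (fun ζ => e (j (c.symm ζ))) (c z)) := h2
    rw [h4]
    simp only [hz.left_inv]
    rfl
  simp only [h1]
  ring

theorem claim [T2Space X] [CompactSpace X] (hZ : ZPStmt) {ι : Type} [Fintype ι] (pj : PJ n X ι)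
    (φ : Mor L R) {k : ℕ} (hk : k ≠ 0) (s : Sec L k) {i : L.ι} {e : Chart n X} {x : X}
    (he : At e x) (hi : x ∈ L.U i) {U : Cm n → ℂ} {b : Cm n → Cm R}
    (hU : AnalyticAt ℂ U (e x)) (hU0 : U (e x) ≠ 0) (hb : AnalyticAt ℂ b (e x))
    (hbs : Function.Surjective (fderiv ℂ b (e x)))
    (hnf : ∀ᶠ z in 𝓝 (e x), ∀ ξ : Fin R → Cm n,
      φ.form i e z ξ = U z * (Matrix.of fun i j => fderiv ℂ b z (ξ j) i).det)
    (hs : s.f i x ≠ 0) {ξ : Cm n} (hξ : fderiv ℂ b (e x) ξ = 0) :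
    fderiv ℂ (fun z => s.f i (e.symm z) * U z ^ k) (e x) ξ = 0 := by
  by_contra hne
  set f : Cm n → ℂ := fun z => s.f i (e.symm z) * U z ^ k with hf
  have hsa : AnalyticAt ℂ (fun z => s.f i (e.symm z)) (e x) := (s.holo i e x he hi).analyticAt
  have hfa : AnalyticAt ℂ f (e x) := hsa.mul (hU.pow k)
  -- the submersion
  set F : Cm n → Cm (R + 1) := fun z => Fin.cons (f z) (b z) with hF
  have hFa : AnalyticAt ℂ F (e x) := by
    rw [analyticAt_pi_iff]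
    intro l
    refine Fin.cases ?_ (fun a => ?_) l
    · exact hfa
    · exact analyticAt_pi_iff.1 hb a
  have hFd : ∀ v l, fderiv ℂ F (e x) v l = fderiv ℂ (fun z => F z l) (e x) v := by
    intro v l
    rw [fderiv_apply (𝕜 := ℂ) hFa.differentiableAt l]
    rfl
  have hbd : ∀ v l, fderiv ℂ b (e x) v l = fderiv ℂ (fun z => b z l) (e x) v := by
    intro v l
    rw [fderiv_apply (𝕜 := ℂ) hb.differentiableAt l]
    rfl
  have hF0 : ∀ v, fderiv ℂ F (e x) v 0 = fderiv ℂ f (e x) v := fun v => hFd v 0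
  have hFs : ∀ v (l : Fin R), fderiv ℂ F (e x) v l.succ = fderiv ℂ b (e x) v l := fun v l => by
    rw [hFd, hbd]; rfl
  have hsurj : Function.Surjective (fderiv ℂ F (e x)) := by
    intro y
    obtain ⟨v, hv⟩ := hbs (fun l => y l.succ)
    refine ⟨v + ((y 0 - fderiv ℂ f (e x) v) / fderiv ℂ f (e x) ξ) • ξ, ?_⟩
    funext l
    refine Fin.cases ?_ (fun a => ?_) l
    · rw [hF0, map_add, map_smul, smul_eq_mul, div_mul_cancel₀ _ hne]
      ring
    · rw [hFs, map_add, map_smul, hξ, smul_zero, add_zero, hv]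
  have hRn : R + 1 ≤ n := by
    have := LinearMap.finrank_le_finrank_of_surjective (f := (fderiv ℂ F (e x)).toLinearMap) hsurj
    simpa using this
  -- the good neighbourhood
  have hev : ∀ᶠ z in 𝓝 (e x), (∀ ξ : Fin R → Cm n,
      φ.form i e z ξ = U z * (Matrix.of fun i j => fderiv ℂ b z (ξ j) i).det) ∧
      AnalyticAt ℂ b z ∧ AnalyticAt ℂ U z ∧ U z ≠ 0 ∧ s.f i (e.symm z) ≠ 0 := by
    have h1 : ∀ᶠ z in 𝓝 (e x), s.f i (e.symm z) ≠ 0 :=
      hsa.continuousAt.eventually_ne (by rwa [he.left_inv])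
    filter_upwards [hnf, hb.eventually_analyticAt, hU.eventually_analyticAt,
      hU.continuousAt.eventually_ne hU0, h1] with z h1 h2 h3 h4 h5
    exact ⟨h1, h2, h3, h4, h5⟩
  obtain ⟨O, hO, hOo, hxO⟩ := _root_.eventually_nhds_iff.1 hev
  set W : Set X := e.source ∩ e ⁻¹' O ∩ L.U i with hW
  have hWo : IsOpen W := (e.isOpen_inter_preimage hOo).inter (L.isOpen i)
  have hxW : x ∈ W := ⟨⟨he.2, hxO⟩, hi⟩
  have hWmem : W ∈ 𝓝 x := hWo.mem_nhds hxW
  obtain ⟨Z, _, _, _, _, _, _, j, hj, w, hw, hpos, z₁, c₁, hz₁, hjW, hez₁, han, hbij⟩ :=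
    hZ n (R + 1) (by omega) hRn X ι pj e x he W hWmem F hFa hsurj
  -- bijective derivatives near `z₁`
  set Φ : Cm (R + 1) → Cm (R + 1) := fun y => F (e (j (c₁.symm y))) with hΦ
  have hdet1 : (jt Φ (c₁ z₁)).det ≠ 0 := jt_det_ne han.differentiableAt hbij.1
  have hdetc : ContinuousAt (fun ζ => (jt Φ ζ).det) (c₁ z₁) := by
    have h2 : ∀ r l, ContDiffAt ℂ ω (fun ζ => jt Φ ζ r l) (c₁ z₁) := fun r l =>
      dz_holo' (contDiffAt_pi.1 han.contDiffAt l) r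
    have h3 : ContDiffAt ℝ ω (fun ζ => (jt Φ ζ).det) (c₁ z₁) :=
      INT.contDiffAt_det fun r l => (h2 r l).restrict_scalars ℝ
    exact h3.continuousAt
  have hev2 : ∀ᶠ ζ in 𝓝 (c₁ z₁), (jt Φ ζ).det ≠ 0 ∧ AnalyticAt ℂ Φ ζ :=
    (hdetc.eventually_ne hdet1).and han.eventually_analyticAt
  obtain ⟨O', hO', hOo', hzO'⟩ := _root_.eventually_nhds_iff.1 hev2
  set V : Set Z := (c₁.source ∩ c₁ ⁻¹' O') ∩ j ⁻¹' W with hV
  have hVo : IsOpen V := (c₁.isOpen_inter_preimage hOo').inter (hWo.preimage hj.continuous)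
  have hVne : V.Nonempty := ⟨z₁, ⟨hz₁.2, hzO'⟩, hjW⟩
  obtain ⟨z, hzV, c, hz, hcore⟩ := core hw hpos hk (pbS hj s) (pbM hj φ) hVo hVne
  -- the data at `z`
  obtain ⟨⟨hzs, hzO⟩, ⟨⟨hjs, hjO⟩, hji⟩⟩ := hzV
  have hej : At e (j z) := ⟨he.1, hjs⟩
  have hz₁' : At c₁ z := ⟨hz₁.1, hzs⟩
  obtain ⟨g1, g2⟩ := hO' _ hzO
  have hev3 : ∀ᶠ ζ in 𝓝 (c z), ζ ∈ c.target ∧ At c (c.symm ζ) ∧ At e (j (c.symm ζ)) ∧
      e (j (c.symm ζ)) ∈ O ∧ j (c.symm ζ) ∈ L.U i := by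
    have hWz : W ∈ 𝓝 (j z) := hWo.mem_nhds ⟨⟨hjs, hjO⟩, hji⟩
    filter_upwards [j_ev' hj.continuous hz hej hWz] with ζ hζ
    exact ⟨hζ.1, hζ.2.1, hζ.2.2.2, hζ.2.2.1.1.2, hζ.2.2.1.2⟩
  have hsz : s.f i (j z) ≠ 0 := by
    have := (hO _ hjO).2.2.2.2
    rwa [e.left_inv hjs] at this
  have hscd : ContDiffAt ℂ ω (fun ζ => s.f i (j (c.symm ζ))) (c z) :=
    (pbS hj s).holo i c z hz hji
  obtain ⟨g, hg, hgk⟩ := exists_root (k := k) hscd (by rw [hz.left_inv]; exact hsz) hk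
  have h0 := hcore i hji hsz g hg hgk
  -- the root of `f`
  set B : Cm (R + 1) → Cm R := fun ζ => b (e (j (c.symm ζ))) with hB
  set G : Cm (R + 1) → ℂ := fun ζ => g ζ * U (e (j (c.symm ζ))) with hG
  have hjc := jc_holo hj hz hej
  have hUc : ContDiffAt ℂ ω (fun ζ => U (e (j (c.symm ζ)))) (c z) := by
    refine ContDiffAt.comp (c z) (g := U) ?_ hjc
    rw [hz.left_inv]
    exact (hO _ hjO).2.2.1.contDiffAt
  have hBc : ContDiffAt ℂ ω B (c z) := by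
    refine ContDiffAt.comp (c z) (g := b) ?_ hjc
    rw [hz.left_inv]
    exact (hO _ hjO).2.1.contDiffAt
  have hGF : ∀ᶠ ζ in 𝓝 (c z), G ζ ^ k = f (e (j (c.symm ζ))) := by
    filter_upwards [hgk, hev3] with ζ h1 h2
    rw [hG, hf]
    simp only
    rw [mul_pow, h1, h2.2.2.1.left_inv]
  have hS : ∑ a, dz a (fun y => G y * kap B a y) (c z) = 0 := by
    rw [← h0]
    refine Finset.sum_congr rfl fun a _ => INT.dz_congr ?_
    filter_upwards [hev3] with ζ hζ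
    have h5 := bv_pull (e := e) hj φ hζ.2.1 hζ.2.2.1 hζ.2.2.2.2 (hO _ hζ.2.2.2.1).2.1
      (hO _ hζ.2.2.2.1).1 a
    rw [c.right_inv hζ.1] at h5
    rw [h5, hG, hB]
    simp only
    ring
  have hfin := piola_ne (F := fun ζ => f (e (j (c.symm ζ)))) (hg.mul hUc) hBc hGF hS
  -- the derivative is bijective in the chart `c`
  refine absurd hfin ?_
  have hcns : cns (fun ζ => f (e (j (c.symm ζ)))) B = fun ζ => F (e (j (c.symm ζ))) := rfl
  rw [hcns]
  have hev4 : (fun ζ => F (e (j (c.symm ζ)))) =ᶠ[𝓝 (c z)] fun ζ => Φ (c₁ (c.symm ζ)) := by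
    filter_upwards [hz.nhds_at hz₁'] with ζ hζ
    rw [hΦ]
    simp only
    rw [hζ.2.2.left_inv]
  have hd1 : DifferentiableAt ℂ Φ (c₁ (c.symm (c z))) := by
    rw [hz.left_inv]; exact g2.differentiableAt
  have hd2 := transition_differentiableAt hz hz₁'
  have hjt : jt (fun ζ => F (e (j (c.symm ζ)))) (c z) = (jmat Φ (c₁ z) * jacM c c₁ z)ᵀ := by
    have h6 : jmat (fun ζ => Φ (c₁ (c.symm ζ))) (c z) = jmat Φ (c₁ z) * jacM c c₁ z := by
      have := jmat_comp (τ := fun ζ => c₁ (c.symm ζ)) (σ := Φ) (z := c z) hd1 hd2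
      rw [this, hz.left_inv]
      rfl
    rw [← h6, ← jmat_congr hev4]
    rfl
  rw [hjt, Matrix.det_transpose, Matrix.det_mul]
  refine mul_ne_zero ?_ (jacM_det_ne_zero hz hz₁')
  have h7 : (jmat Φ (c₁ z)).det = (jt Φ (c₁ z)).det := by
    rw [← Matrix.det_transpose]
    rfl
  rw [h7]
  exact g1

end Vale.Agent.P284.H206.Bog
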