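import Vale.Agent.P284.H206.Bog.Fin2

/-!
# P284 (helper206), module BOG: Bogomolov's theorem for generically decomposable forms
-/

open scoped Manifold ContDiff Topology ComplexOrder ComplexConjugate Matrix
open Filter Set

noncomputable section

namespace Vale.Agent.P284.H206

open Vale.Agent.P272.K Vale.Agent.P284.H248 Vale.Agent.P284.H221 Vale.Agent.P284.H998 Bog

namespace Bog

/-- the sum of two sections -/
def sadd {n : ℕ} {X : Type} [TopologicalSpace X] [ChartedSpace (Cm n) X] {L : LineBundle n X}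
    {k : ℕ} (s t : Sec L k) : Sec L k where
  f i x := s.f i x + t.f i x
  holo i e x he hi := (s.holo i e x he hi).add (t.holo i e x he hi)
  change i i' x hi hi' := by rw [s.change i i' x hi hi', t.change i i' x hi hi']; ring

section
variable {n R : ℕ} {X : Type} [TopologicalSpace X] [ChartedSpace (Cm n) X]
  [IsManifold 𝓘(ℂ, Cm n) ω X] {L : LineBundle n X}

/-- ratios of sections near a point where the form is decomposable: their differentials vanish on the
kernel of `db` -/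
theorem ratio_ker [T2Space X] [CompactSpace X] (hZ : ZPStmt) {ι : Type} [Fintype ι] (pj : PJ n X ι)
    (φ : Mor L R) {k : ℕ} (hk : k ≠ 0) (s t : Sec L k) {i : L.ι} {e : Chart n X} {x : X}
    (he : At e x) (hi : x ∈ L.U i) {U : Cm n → ℂ} {b : Cm n → Cm R}
    (hU : AnalyticAt ℂ U (e x)) (hU0 : U (e x) ≠ 0) (hb : AnalyticAt ℂ b (e x))
    (hbs : Function.Surjective (fderiv ℂ b (e x)))
    (hnf : ∀ᶠ z in 𝓝 (e x), ∀ ξ : Fin R → Cm n,
      φ.form i e z ξ = U z * (Matrix.of fun i j => fderiv ℂ b z (ξ j) i).det)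
    (hs : s.f i x ≠ 0) {ξ : Cm n} (hξ : fderiv ℂ b (e x) ξ = 0) :
    fderiv ℂ (fun z => t.f i (e.symm z) / s.f i (e.symm z)) (e x) ξ = 0 := by
  have hsa : AnalyticAt ℂ (fun z => s.f i (e.symm z)) (e x) := (s.holo i e x he hi).analyticAt
  have hs0 : s.f i (e.symm (e x)) ≠ 0 := by rwa [he.left_inv]
  -- first the case of a nonvanishing section
  have key : ∀ t : Sec L k, t.f i x ≠ 0 →
      fderiv ℂ (fun z => t.f i (e.symm z) / s.f i (e.symm z)) (e x) ξ = 0 := by
    intro t ht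
    have hta : AnalyticAt ℂ (fun z => t.f i (e.symm z)) (e x) := (t.holo i e x he hi).analyticAt
    have h1 := claim hZ pj φ hk s he hi hU hU0 hb hbs hnf hs hξ
    have h2 := claim hZ pj φ hk t he hi hU hU0 hb hbs hnf ht hξ
    have hUa := hU.pow k
    set S : Cm n → ℂ := fun z => s.f i (e.symm z) * U z ^ k with hS
    set T : Cm n → ℂ := fun z => t.f i (e.symm z) * U z ^ k with hT
    set q : Cm n → ℂ := fun z => t.f i (e.symm z) / s.f i (e.symm z) with hq
    have hSa : AnalyticAt ℂ S (e x) := hsa.mul hUa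
    have hqa : AnalyticAt ℂ q (e x) := hta.div hsa hs0
    have hev : T =ᶠ[𝓝 (e x)] fun z => q z * S z := by
      filter_upwards [hsa.continuousAt.eventually_ne hs0] with z hz
      rw [hT, hS, hq]
      simp only
      field_simp
    have h3 : HasFDerivAt (fun z => q z * S z)
        (q (e x) • fderiv ℂ S (e x) + S (e x) • fderiv ℂ q (e x)) (e x) :=
      hqa.differentiableAt.hasFDerivAt.mul hSa.differentiableAt.hasFDerivAt
    have h4 : fderiv ℂ T (e x) ξ = q (e x) * fderiv ℂ S (e x) ξ + S (e x) * fderiv ℂ q (e x) ξ := by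
      rw [hev.fderiv_eq, h3.fderiv]
      simp
    rw [h2, h1, mul_zero, zero_add] at h4
    have hS0 : S (e x) ≠ 0 := mul_ne_zero hs0 (pow_ne_zero _ hU0)
    exact (mul_eq_zero.1 h4.symm).resolve_left hS0
  by_cases ht : t.f i x = 0
  · have h1 : (sadd s t).f i x ≠ 0 := by
      show s.f i x + t.f i x ≠ 0
      rw [ht, add_zero]; exact hs
    have h2 := key (sadd s t) h1
    have hev : (fun z => (sadd s t).f i (e.symm z) / s.f i (e.symm z)) =ᶠ[𝓝 (e x)]
        fun z => 1 + t.f i (e.symm z) / s.f i (e.symm z) := by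
      filter_upwards [hsa.continuousAt.eventually_ne hs0] with z hz
      show (s.f i (e.symm z) + t.f i (e.symm z)) / s.f i (e.symm z) = _
      rw [add_div, div_self hz]
    rw [hev.fderiv_eq, fderiv_const_add] at h2
    exact h2
  · exact key t ht

end

/-- functionals vanishing on the kernel of a map onto `ℂᴿ` -/
theorem card_le {n R m : ℕ} {b : Cm n →L[ℂ] Cm R} (hb : Function.Surjective b)
    {f : Fin m → (Cm n →L[ℂ] ℂ)} (hf : LinearIndependent ℂ f) (h0 : ∀ a ξ, b ξ = 0 → f a ξ = 0) :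
    m ≤ R := by
  obtain ⟨S, hS⟩ := b.toLinearMap.exists_rightInverse_of_surjective
    (LinearMap.range_eq_top.2 hb)
  set g : Fin m → (Cm R →ₗ[ℂ] ℂ) := fun a => (f a).toLinearMap ∘ₗ S with hg
  have hgb : ∀ a ξ, g a (b ξ) = f a ξ := by
    intro a ξ
    have h1 : b (ξ - S (b ξ)) = 0 := by
      have h2 : b (S (b ξ)) = b ξ := LinearMap.congr_fun hS (b ξ)
      rw [map_sub, h2, sub_self]
    have h3 := h0 a _ h1
    rw [map_sub, sub_eq_zero] at h3
    exact h3.symm
  have hgi : LinearIndependent ℂ g := by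
    rw [Fintype.linearIndependent_iff] at hf ⊢
    intro c hc a
    refine hf c ?_ a
    ext1 ξ
    have := LinearMap.congr_fun hc (b ξ)
    simp only [LinearMap.sum_apply, LinearMap.smul_apply, hgb, LinearMap.zero_apply] at this
    simpa [ContinuousLinearMap.sum_apply] using this
  have h := hgi.fintype_card_le_finrank
  simpa using h

end Bog

/-- **BOG** from the existence of slices. -/
theorem bog_of (hZ : ZPStmt) : BogStmt := by
  intro n R X _ _ _ _ _ ι _ pj L φ hD hI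
  obtain ⟨k, hk1, s, i₀, e₀, x₀, he₀, hi₀, hs₀, hli⟩ := hI
  have hk : k ≠ 0 := by omega
  -- the differentials of the ratios
  set q : Fin (R + 1) → Cm n → ℂ := fun a z => (s a.succ).f i₀ (e₀.symm z) / (s 0).f i₀ (e₀.symm z)
    with hq
  have hsa : ∀ a, AnalyticAt ℂ (fun z => (s a).f i₀ (e₀.symm z)) (e₀ x₀) := fun a =>
    ((s a).holo i₀ e₀ x₀ he₀ hi₀).analyticAt
  have hs0 : (s 0).f i₀ (e₀.symm (e₀ x₀)) ≠ 0 := by rwa [he₀.left_inv]
  have hqa : ∀ a, AnalyticAt ℂ (q a) (e₀ x₀) := fun a => (hsa _).div (hsa 0) hs0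
  have hcont : ContinuousAt (fun z => fun a => fderiv ℂ (q a) z) (e₀ x₀) :=
    continuousAt_pi.2 fun a => (hqa a).fderiv.continuousAt
  have hev1 : ∀ᶠ z in 𝓝 (e₀ x₀), LinearIndependent ℂ fun a => fderiv ℂ (q a) z :=
    hcont.eventually (isOpen_setOf_linearIndependent.mem_nhds hli)
  have hev2 : ∀ᶠ z in 𝓝 (e₀ x₀), (s 0).f i₀ (e₀.symm z) ≠ 0 ∧ (∀ a, AnalyticAt ℂ (q a) z) := by
    filter_upwards [(hsa 0).continuousAt.eventually_ne hs0,
      eventually_all.2 fun a => (hqa a).eventually_analyticAt] with z h1 h2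
    exact ⟨h1, h2⟩
  obtain ⟨O, hO, hOo, hxO⟩ := _root_.eventually_nhds_iff.1 (hev1.and hev2)
  have hWo : IsOpen (e₀.source ∩ e₀ ⁻¹' O ∩ L.U i₀) :=
    (e₀.isOpen_inter_preimage hOo).inter (L.isOpen i₀)
  obtain ⟨x, ⟨⟨hx1, hx2⟩, hx3⟩, hxD⟩ := hD.inter_open_nonempty _ hWo ⟨x₀, ⟨he₀.2, hxO⟩, hi₀⟩
  obtain ⟨i, e, he, hi, U, b, hU, hU0, hb, hbs, hnf⟩ := hxD
  obtain ⟨g1, g2, g3⟩ := hO _ hx2
  have he₀x : At e₀ x := ⟨he₀.1, hx1⟩
  rw [he₀x.left_inv] at g2
  -- `s 0` does not vanish in the frame `i`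
  have hsx : (s 0).f i x ≠ 0 := by
    intro h0
    apply g2
    rw [(s 0).change i₀ i x hx3 hi, h0, mul_zero]
  -- the ratios in the new chart
  have htr : ∀ a : Fin (R + 1), (fun z => (s a.succ).f i (e.symm z) / (s 0).f i (e.symm z))
      =ᶠ[𝓝 (e x)] fun z => q a (e₀ (e.symm z)) := by
    intro a
    have h1 : ∀ᶠ z in 𝓝 (e x), e.symm z ∈ L.U i ∩ L.U i₀ := by
      have := he.nhds_at he
      exact ev_symm he (((L.isOpen i).inter (L.isOpen i₀)).mem_nhds ⟨hi, hx3⟩)
    filter_upwards [he.nhds_at he₀x, h1] with z hz hz2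
    rw [hq]
    simp only
    rw [hz.2.2.left_inv, (s a.succ).change i i₀ _ hz2.1 hz2.2, (s 0).change i i₀ _ hz2.1 hz2.2,
      mul_div_mul_left _ _ (pow_ne_zero _ (L.ne_zero i i₀ _ hz2.1 hz2.2))]
  have htd := transition_differentiableAt he he₀x
  have hder : ∀ a : Fin (R + 1),
      fderiv ℂ (fun z => (s a.succ).f i (e.symm z) / (s 0).f i (e.symm z)) (e x) =
      (fderiv ℂ (q a) (e₀ x)).comp (fderiv ℂ (fun z => e₀ (e.symm z)) (e x)) := by
    intro a
    have h1 : DifferentiableAt ℂ (q a) (e₀ (e.symm (e x))) := by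
      rw [he.left_inv]; exact (g3 a).differentiableAt
    have h2 := fderiv_comp (𝕜 := ℂ) (e x) (g := q a) (f := fun z => e₀ (e.symm z)) h1 htd
    rw [(htr a).fderiv_eq, show (fun z => q a (e₀ (e.symm z))) = q a ∘ fun z => e₀ (e.symm z) from rfl,
      h2, he.left_inv]
  have hsurj : Function.Surjective (fderiv ℂ (fun z => e₀ (e.symm z)) (e x)) := by
    intro y
    refine ⟨(jacM e e₀ x)⁻¹ *ᵥ y, ?_⟩
    funext p
    rw [jmat_mulVec htd]
    have h1 : jacM e e₀ x *ᵥ ((jacM e e₀ x)⁻¹ *ᵥ y) = y := by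
      rw [Matrix.mulVec_mulVec, Matrix.mul_nonsing_inv _ (jacM_isUnit he he₀x), Matrix.one_mulVec]
    exact congrFun h1 p
  have hli' : LinearIndependent ℂ fun a : Fin (R + 1) =>
      fderiv ℂ (fun z => (s a.succ).f i (e.symm z) / (s 0).f i (e.symm z)) (e x) := by
    rw [Fintype.linearIndependent_iff] at g1 ⊢
    intro c hc a
    refine g1 c ?_ a
    ext1 y
    obtain ⟨v, rfl⟩ := hsurj y
    have h1 := congrArg (fun (f : Cm n →L[ℂ] ℂ) => f v) hc
    simp only [hder, ContinuousLinearMap.sum_apply, ContinuousLinearMap.smul_apply,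
      ContinuousLinearMap.comp_apply, ContinuousLinearMap.zero_apply] at h1
    simpa [ContinuousLinearMap.sum_apply] using h1
  have hle := card_le hbs hli' fun a ξ hξ =>
    ratio_ker hZ pj φ hk (s 0) (s a.succ) he hi hU hU0 hb hbs hnf hsx hξ
  omega

end Vale.Agent.P284.H206
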