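import Vale.Agent.P284.H206.Bog.Loc

/-!
# P284 (helper206), module BOG: forms of bidegree `(n-1,n-1)` on a compact manifold

`A e z` is the coefficient matrix of a form of type `(n-1,n-1)`, smooth off a closed set `S`; the
integral of `A ∧ i∂∂̄χ` is the integral of `χ i∂∂̄A`.
-/

open scoped Manifold ContDiff Topology ComplexOrder ComplexConjugate Matrix
open Filter Set MeasureTheory

noncomputable section

namespace Vale.Agent.P284.H206.Bog

open Vale.Agent.P272.K Vale.Agent.P272.K.INT

variable {n : ℕ} {X : Type*} [TopologicalSpace X] [ChartedSpace (Cm n) X]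

/-- `A` is the coefficient matrix of a smooth form of type `(n-1,n-1)` off `S`. -/
structure TF (S : Set X) (A : Chart n X → Cm n → Matrix (Fin n) (Fin n) ℂ) : Prop where
  smooth : ∀ e x, At e x → x ∉ S → ∀ j k, ContDiffAt ℝ ∞ (fun z => A e z j k) (e x)
  change : ∀ e e' x, At e x → At e' x → x ∉ S →
    jacM e e' x * A e (e x) * (jacM e e' x)ᴴ = ((‖(jacM e e' x).det‖ ^ 2 : ℝ) : ℂ) • A e' (e' x)

theorem pr_eq_trace (A H : Matrix (Fin n) (Fin n) ℂ) : pr A H = (A * Hᵀ).trace := by
  simp only [pr, Matrix.trace, Matrix.diag_apply, Matrix.mul_apply, Matrix.transpose_apply]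

theorem pr_change {A A' H H' J : Matrix (Fin n) (Fin n) ℂ} {c : ℂ} (hA : J * A * Jᴴ = c • A')
    (hH : H = Jᵀ * H' * J.map (starRingEnd ℂ)) : pr A H = c * pr A' H' := by
  rw [pr_eq_trace, pr_eq_trace, hH]
  have e1 : (Jᵀ * H' * J.map (starRingEnd ℂ))ᵀ = Jᴴ * H'ᵀ * J := by
    rw [Matrix.transpose_mul, Matrix.transpose_mul, Matrix.transpose_transpose, ← Matrix.mul_assoc]
    rfl
  rw [e1]
  have e2 : (A * (Jᴴ * H'ᵀ * J)).trace = (J * A * Jᴴ * H'ᵀ).trace := by
    rw [← Matrix.mul_assoc, Matrix.trace_mul_comm]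
    simp only [Matrix.mul_assoc]
  rw [e2, hA, Matrix.smul_mul, Matrix.trace_smul, smul_eq_mul]

/-- the density `A ∧ i∂∂̄χ` -/
def BB (A : Chart n X → Cm n → Matrix (Fin n) (Fin n) ℂ) (χ : X → ℝ) (e : Chart n X) (z : Cm n) : ℝ :=
  (pr (A e z) (cHess (fun y => χ (e.symm y)) z)).re

section
variable [IsManifold 𝓘(ℂ, Cm n) ω X] {S : Set X}
  {A : Chart n X → Cm n → Matrix (Fin n) (Fin n) ℂ} {χ : X → ℝ}

omit [IsManifold 𝓘(ℂ, Cm n) ω X] in
theorem ev_symm {e : Chart n X} {x : X} (hx : At e x) {p : X → Prop} (h : ∀ᶠ y in 𝓝 x, p y) :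
    ∀ᶠ z in 𝓝 (e x), p (e.symm z) := by
  apply (e.continuousAt_symm (e.map_source hx.2)).eventually
  rw [e.left_inv hx.2]
  exact h

omit [IsManifold 𝓘(ℂ, Cm n) ω X] in
theorem cHess_off {e : Chart n X} {x : X} (hx : At e x) (h : x ∉ tsupport χ) :
    (cHess fun y => χ (e.symm y)) =ᶠ[𝓝 (e x)] fun _ => 0 := by
  have h1 : ∀ᶠ y in 𝓝 x, y ∉ tsupport χ := (isClosed_tsupport χ).isOpen_compl.mem_nhds h
  have h2 : (fun y => χ (e.symm y)) =ᶠ[𝓝 (e x)] fun _ => (0 : ℝ) := by
    filter_upwards [ev_symm hx h1] with y hy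
    exact image_eq_zero_of_notMem_tsupport hy
  refine (C2.cHess_eventuallyEq h2).trans ?_
  filter_upwards with y
  exact C2.cHess_const 0

theorem BB_density (hA : TF S A) (hχ : SmoothFn (n := n) χ) (hs : tsupport χ ∩ S = ∅) :
    IsDensity (BB A χ) where
  cont e x hx := by
    by_cases hxs : x ∈ tsupport χ
    · have hxS : x ∉ S := fun h => (hs ▸ (⟨hxs, h⟩ : x ∈ tsupport χ ∩ S) : x ∈ (∅ : Set X)).elim
      have h1 : ∀ j k, ContinuousAt (fun z => A e z j k) (e x) := fun j k =>
        (hA.smooth e x hx hxS j k).continuousAt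
      have h2 : ∀ j k, ContinuousAt (fun z => cHess (fun y => χ (e.symm y)) z j k) (e x) :=
        fun j k => (INT.smooth_cHess (hχ e x hx) j k).continuousAt
      unfold BB pr
      refine Complex.continuous_re.continuousAt.comp ?_
      exact tendsto_finsetSum _ fun j _ => tendsto_finsetSum _ fun k _ => (h1 j k).mul (h2 j k)
    · have h1 : BB A χ e =ᶠ[𝓝 (e x)] fun _ => 0 := by
        filter_upwards [cHess_off hx hxs] with z hz
        simp only [BB, pr, hz, Matrix.zero_apply, mul_zero, Finset.sum_const_zero, Complex.zero_re]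
      exact continuousAt_const.congr h1.symm
  change e e' x hx hx' := by
    by_cases hxs : x ∈ tsupport χ
    · have hxS : x ∉ S := fun h => (hs ▸ (⟨hxs, h⟩ : x ∈ tsupport χ ∩ S) : x ∈ (∅ : Set X)).elim
      have h1 := isForm_cHess (u := χ) (fun e x h => (hχ e x h).of_le two_le_inf) e e' x hx hx'
      unfold BB
      rw [pr_change (hA.change e e' x hx hx' hxS) h1, Complex.re_ofReal_mul, mul_comm]
    · unfold BB
      rw [(cHess_off hx hxs).self_of_nhds, (cHess_off hx' hxs).self_of_nhds]
      simp [pr]

variable [T2Space X] [CompactSpace X]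

/-- one piece, supported in a chart -/
theorem BB_piece (hA : TF S A) (hχ : SmoothFn (n := n) χ)
    (hs : tsupport χ ∩ S = ∅) {e : Chart n X} (he : e ∈ atlas (Cm n) X)
    (hse : tsupport χ ⊆ e.source) :
    intX (BB A χ) = ∫ z in e.target, (DD (A e) z).re * χ (e.symm z) := by
  have hD := BB_density hA hχ hs
  rw [intX_of_support hD he (isClosed_tsupport χ) hse (fun e' x hx hxχ => by
    unfold BB
    rw [(cHess_off hx hxχ).self_of_nhds]
    simp [pr])]
  set u : Cm n → ℝ := e.target.indicator (fun z => χ (e.symm z)) with hu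
  set K : Set (Cm n) := e '' tsupport χ with hK
  have hKc : IsCompact K :=
    (isClosed_tsupport χ).isCompact.image_of_continuousOn (e.continuousOn.mono hse)
  have hKt : K ⊆ e.target := by
    rintro _ ⟨x, hx, rfl⟩; exact e.map_source (hse hx)
  have hsupp : Function.support u ⊆ K := by
    intro z hz
    simp only [hu, Function.mem_support] at hz
    have hzt : z ∈ e.target := by
      by_contra h; exact hz (indicator_of_notMem h _)
    rw [indicator_of_mem hzt] at hz
    exact ⟨e.symm z, subset_tsupport _ hz, e.right_inv hzt⟩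
  have hts : tsupport u ⊆ K := closure_minimal hsupp hKc.isClosed
  have hucs : HasCompactSupport u := hKc.of_isClosed_subset (isClosed_tsupport u) hts
  have hue : ∀ z ∈ e.target, u =ᶠ[𝓝 z] fun z => χ (e.symm z) := by
    intro z hz
    filter_upwards [e.open_target.mem_nhds hz] with y hy
    rw [hu, indicator_of_mem hy]
  have hus : ContDiff ℝ ∞ u := by
    rw [contDiff_iff_contDiffAt]
    intro z
    by_cases hz : z ∈ e.target
    · have := hχ e (e.symm z) ⟨he, e.map_target hz⟩
      rw [e.right_inv hz] at this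
      exact this.congr_of_eventuallyEq (hue z hz)
    · exact contDiffAt_const.congr_of_eventuallyEq
        (notMem_tsupport_iff_eventuallyEq.1 fun h => hz (hKt (hts h)))
  set U : Set (Cm n) := e.target ∩ e.symm ⁻¹' Sᶜ with hU
  have hKU : K ⊆ U := by
    rintro _ ⟨x, hx, rfl⟩
    refine ⟨e.map_source (hse hx), ?_⟩
    show e.symm (e x) ∉ S
    rw [e.left_inv (hse hx)]
    exact fun h => (hs ▸ (⟨hx, h⟩ : x ∈ tsupport χ ∩ S) : x ∈ (∅ : Set X)).elim
  have hAU : ∀ z ∈ U, ∀ j k, ContDiffAt ℝ ∞ (fun y => A e y j k) z := by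
    intro z hz j k
    have := hA.smooth e (e.symm z) ⟨he, e.map_target hz.1⟩ hz.2 j k
    rwa [e.right_inv hz.1] at this
  have key := ibp_dd (U := U) (A := A e) (ρ := u) hAU hus hucs (hts.trans hKU)
  -- the left-hand side
  have l1 : ∀ z, z ∉ K → cHess u z = 0 := fun z hz => by
    apply cHess_zero_of_notMem
    exact fun h => hz (hts h)
  have l2 : ∫ z in e.target, BB A χ e z = (∫ z, pr (A e z) (cHess u z)).re := by
    have l3 : Integrable fun z => pr (A e z) (cHess u z) := by
      refine Continuous.integrable_of_hasCompactSupport ?_ (HasCompactSupport.intro hKc fun z hz => ?_)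
      · rw [continuous_iff_continuousAt]
        intro z
        by_cases hz : z ∈ K
        · unfold pr
          exact tendsto_finsetSum _ fun j _ => tendsto_finsetSum _ fun k _ =>
            ((hAU z (hKU hz) j k).continuousAt).mul (INT.smooth_cHess hus.contDiffAt j k).continuousAt
        · have : (fun z => pr (A e z) (cHess u z)) =ᶠ[𝓝 z] fun _ => 0 := by
            filter_upwards [hKc.isClosed.isOpen_compl.mem_nhds hz] with y hy
            rw [l1 y hy]; simp [pr]
          exact continuousAt_const.congr this.symm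
      · rw [l1 z hz]; simp [pr]
    rw [← setIntegral_eq_integral_of_forall_compl_eq_zero (s := e.target)
      (f := fun z => pr (A e z) (cHess u z))]
    · have l4 := Complex.reCLM.integral_comp_comm (l3.integrableOn (s := e.target))
      simp only [Complex.reCLM_apply] at l4
      rw [← l4]
      refine setIntegral_congr_fun e.open_target.measurableSet fun z hz => ?_
      show BB A χ e z = _
      rw [BB, cHess_congr (hue z hz)]
    · intro z hz
      rw [l1 z fun h => hz (hKt h)]; simp [pr]
  have r2 : ∫ z in e.target, (DD (A e) z).re * χ (e.symm z) = (∫ z, DD (A e) z * (u z : ℂ)).re := by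
    have r3 : Integrable fun z => DD (A e) z * (u z : ℂ) := by
      refine integrable_mul (U := U) hKc hKU ?_ ?_ ?_
      · intro z hz
        unfold DD
        exact tendsto_finsetSum _ fun j _ => tendsto_finsetSum _ fun k _ =>
          (INT.smooth_dz (INT.smooth_dzb (hAU z hz j k))).continuousAt
      · exact Complex.continuous_ofReal.comp hus.continuous
      · intro z hz
        have : u =ᶠ[𝓝 z] fun _ => 0 := notMem_tsupport_iff_eventuallyEq.1 fun h => hz (hts h)
        filter_upwards [this] with y hy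
        rw [hy, Complex.ofReal_zero]
    rw [← setIntegral_eq_integral_of_forall_compl_eq_zero (s := e.target)
      (f := fun z => DD (A e) z * (u z : ℂ))]
    · have l4 := Complex.reCLM.integral_comp_comm (r3.integrableOn (s := e.target))
      simp only [Complex.reCLM_apply] at l4
      rw [← l4]
      refine setIntegral_congr_fun e.open_target.measurableSet fun z hz => ?_
      show _ = (DD (A e) z * (u z : ℂ)).re
      rw [Complex.re_mul_ofReal, hu, indicator_of_mem hz]
    · intro z hz
      rw [hu, indicator_of_notMem hz]; simp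
  rw [l2, r2, key]

omit [ChartedSpace (Cm n) X] [IsManifold 𝓘(ℂ, Cm n) ω X] [T2Space X] [CompactSpace X] in
theorem inter_empty' {f g : X → ℝ} (h : tsupport f ∩ S = ∅) :
    tsupport (fun x => g x * f x) ∩ S = ∅ :=
  Set.subset_empty_iff.1 ((inter_subset_inter_left S tsupport_mul_subset_right').trans h.subset)

omit [T2Space X] in
theorem DD_integrable (hA : TF S A) (hχ : SmoothFn (n := n) χ)
    (hs : tsupport χ ∩ S = ∅) {e : Chart n X} (he : e ∈ atlas (Cm n) X)
    (hse : tsupport χ ⊆ e.source) :
    IntegrableOn (fun z => (DD (A e) z).re * χ (e.symm z)) e.target := by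
  refine integrableOn_chart ?_ (isClosed_tsupport χ) hse ?_
  · intro z hz
    have hx : At e (e.symm z) := ⟨he, e.map_target hz⟩
    by_cases hxs : e.symm z ∈ tsupport χ
    · have hxS : e.symm z ∉ S := fun h =>
        (hs ▸ (⟨hxs, h⟩ : e.symm z ∈ tsupport χ ∩ S) : e.symm z ∈ (∅ : Set X)).elim
      have hAz : ∀ j k, ContDiffAt ℝ ∞ (fun y => A e y j k) z := by
        intro j k
        have := hA.smooth e _ hx hxS j k
        rwa [e.right_inv hz] at this
      refine (ContinuousAt.mul ?_ ?_).continuousWithinAt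
      · refine Complex.continuous_re.continuousAt.comp ?_
        unfold DD
        exact tendsto_finsetSum _ fun j _ => tendsto_finsetSum _ fun k _ =>
          (INT.smooth_dz (INT.smooth_dzb (hAz j k))).continuousAt
      · have := (hχ e _ hx).continuousAt
        rwa [e.right_inv hz] at this
    · have h1 : (fun z => (DD (A e) z).re * χ (e.symm z)) =ᶠ[𝓝 z] fun _ => 0 := by
        have h2 : ∀ᶠ y in 𝓝 (e.symm z), y ∉ tsupport χ :=
          (isClosed_tsupport χ).isOpen_compl.mem_nhds hxs
        have h3 := ev_symm hx h2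
        rw [e.right_inv hz] at h3
        filter_upwards [h3] with y hy
        rw [image_eq_zero_of_notMem_tsupport hy, mul_zero]
      exact (continuousAt_const.congr h1.symm).continuousWithinAt
  · intro z hz h
    rw [image_eq_zero_of_notMem_tsupport h, mul_zero]

omit [ChartedSpace (Cm n) X] [IsManifold 𝓘(ℂ, Cm n) ω X] [T2Space X] [CompactSpace X] in
theorem inter_empty {f g : X → ℝ} (h : tsupport f ∩ S = ∅) :
    tsupport (fun x => g x * f x) ∩ S = ∅ :=
  Set.subset_empty_iff.1 ((inter_subset_inter_left S tsupport_mul_subset_right').trans h.subset)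

/-- the global formula -/
theorem BB_total (hA : TF S A) (hχ : SmoothFn (n := n) χ)
    (hs : tsupport χ ∩ S = ∅) :
    intX (BB A χ) = ∑ i, ∫ z in ((part n X).e i).target,
      (DD (A ((part n X).e i)) z).re *
        ((part n X).ρ i (((part n X).e i).symm z) * χ (((part n X).e i).symm z)) := by
  set P := part n X with hP
  have hp : ∀ i, SmoothFn (n := n) (fun x => P.ρ i x * χ x) := fun i =>
    SmoothFn.mul (P.smooth i) hχ
  have hps : ∀ i, tsupport (fun x => P.ρ i x * χ x) ∩ S = ∅ := fun i => inter_empty hs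
  have h1 : ∀ e x, At e x → BB A χ e (e x) = ∑ i, BB A (fun x => P.ρ i x * χ x) e (e x) := by
    intro e x hx
    have h2 : (fun y => χ (e.symm y)) = fun y => ∑ i, (P.ρ i (e.symm y) * χ (e.symm y)) := by
      funext y; rw [← Finset.sum_mul, P.sum, one_mul]
    unfold BB
    rw [h2, cHess_sum Finset.univ (f := fun i y => P.ρ i (e.symm y) * χ (e.symm y))
      (fun i _ => (hp i e x hx).of_le two_le_inf)]
    rw [← Complex.re_sum, pr_sum]
  rw [intX_congr (D' := fun e z => ∑ i, BB A (fun x => P.ρ i x * χ x) e z) (fun e x hx => h1 e x hx),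
    intX_sum Finset.univ fun i _ => BB_density hA (hp i) (hps i)]
  refine Finset.sum_congr rfl fun i _ => ?_
  exact BB_piece hA (hp i) (hps i) (P.mem i) (tsupport_mul_subset_left'.trans (P.supp i))

end

end Vale.Agent.P284.H206.Bog
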