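import Vale.Agent.P284.H206.Bog.Glob1
import Vale.Agent.P284.H812.KO1

/-!
# P284 (helper206), module BOG: the form `w^{n-1}` and the weight `G = |P|² e^{-M w}`
-/

open scoped Manifold ContDiff Topology ComplexOrder ComplexConjugate Matrix
open Filter Set MeasureTheory

noncomputable section

namespace Vale.Agent.P284.H206.Bog

open Vale.Agent.P272.K Vale.Agent.P272.K.INT Vale.Agent.P272.KOD

variable {n : ℕ} {X : Type*} [TopologicalSpace X] [ChartedSpace (Cm n) X]
  [IsManifold 𝓘(ℂ, Cm n) ω X] {w : Chart n X → Cm n → ℝ}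

/-- the coefficient matrix of `w^{n-1}` -/
def Ag (w : Chart n X → Cm n → ℝ) (e : Chart n X) (z : Cm n) : Matrix (Fin n) (Fin n) ℂ :=
  (cHess (w e) z).adjugateᵀ

omit [ChartedSpace (Cm n) X] [IsManifold 𝓘(ℂ, Cm n) ω X] in
theorem Ag_apply (e : Chart n X) (z : Cm n) (j k : Fin n) :
    Ag w e z j k = ((cHess (w e) z).updateRow j (Pi.single k 1)).det := by
  rw [Ag, Matrix.transpose_apply, Matrix.adjugate_apply]

theorem Ag_smooth (hw : IsCanonicalMetric w) {e : Chart n X} {x : X} (hx : At e x) (j k : Fin n) :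
    ContDiffAt ℝ ∞ (fun z => Ag w e z j k) (e x) := by
  simp only [Ag_apply]
  refine INT.contDiffAt_det fun i l => ?_
  by_cases h : i = j
  · subst h
    simp only [Matrix.updateRow_self]
    exact contDiffAt_const
  · simp only [Matrix.updateRow_ne h]
    exact INT.smooth_cHess (hw.smooth e x hx) i l

theorem Ag_TF (hw : IsCanonicalMetric w) : TF (∅ : Set X) (Ag w) where
  smooth e x hx _ j k := Ag_smooth hw hx j k
  change e e' x hx hx' _ := by
    have h1 := isForm_canonical (φ := w) (fun e x h => (hw.smooth e x h).of_le two_le_inf) hw.change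
      e e' x hx hx'
    set J := jacM e e' x with hJ
    have h2 : cHess (w e) (e x) = Jᵀ * cHess (w e') (e' x) * J.map (starRingEnd ℂ) := h1
    have h3 : Ag w e (e x) = J.adjugate * Ag w e' (e' x) * (Jᴴ).adjugate := by
      rw [Ag, Ag, h2, Matrix.adjugate_mul_distrib, Matrix.adjugate_mul_distrib]
      have e1 : ((J.map (starRingEnd ℂ)).adjugate)ᵀ = (Jᴴ).adjugate := by
        rw [Matrix.adjugate_transpose]; rfl
      have e2 : ((Jᵀ).adjugate)ᵀ = J.adjugate := by
        rw [Matrix.adjugate_transpose, Matrix.transpose_transpose]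
      rw [Matrix.transpose_mul, Matrix.transpose_mul, e1, e2]
    rw [h3]
    have e3 : J * (J.adjugate * Ag w e' (e' x) * (Jᴴ).adjugate) * Jᴴ =
        (J * J.adjugate) * Ag w e' (e' x) * ((Jᴴ).adjugate * Jᴴ) := by
      simp only [Matrix.mul_assoc]
    rw [e3, Matrix.mul_adjugate, Matrix.adjugate_mul, Matrix.det_conjTranspose]
    simp only [Matrix.smul_mul, Matrix.mul_smul, Matrix.one_mul, Matrix.mul_one, smul_smul]
    congr 1
    rw [← Complex.normSq_eq_norm_sq, ← Complex.mul_conj, mul_comm]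
    rfl

theorem DD_Ag (hw : IsCanonicalMetric w) {e : Chart n X} {x : X} (hx : At e x) :
    DD (Ag w e) (e x) = 0 := by
  have hev : ∀ᶠ z in 𝓝 (e x), ContDiffAt ℝ ∞ (w e) z := by
    filter_upwards [hx.nhds_at hx] with z hz
    have := hw.smooth e _ hz.2.1
    rwa [e.right_inv hz.1] at this
  have hA : ∀ᶠ z in 𝓝 (e x), ∀ j k, ContDiffAt ℝ ∞ (fun z => Ag w e z j k) z := by
    filter_upwards [hx.nhds_at hx] with z hz j k
    have := Ag_smooth hw hz.2.1 j k
    rwa [e.right_inv hz.1] at this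
  have hdiv : ∀ k, (fun z => ∑ j, dz j (fun y => Ag w e y j k) z) =ᶠ[𝓝 (e x)] fun _ => 0 := by
    intro k
    filter_upwards [hev] with z hz
    have h1 := INT.piola (M := fun y => cHess (w e) y) (a := fun _ => Pi.single k 1) (z := z)
      (fun i j => (INT.smooth_cHess hz i j).differentiableAt (by simp))
      (fun l => differentiableAt_const _) (fun i k l => INT.cHess_closed hz i k l)
    have h2 : ∀ j, dz j (fun y => Ag w e y j k) z =
        dz j (fun y => ((cHess (w e) y).updateRow j (Pi.single k 1)).det) z := by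
      intro j
      congr 1
      funext y
      rw [Ag_apply]
    simp only [h2]
    rw [h1]
    refine Finset.sum_eq_zero fun r _ => ?_
    refine Matrix.det_eq_zero_of_row_eq_zero r fun l => ?_
    rw [Matrix.updateRow_self]
    exact INT.dz_const _
  have h3 : DD (Ag w e) (e x) = ∑ k, dzb k (fun z => ∑ j, dz j (fun y => Ag w e y j k) z) (e x) := by
    unfold DD
    rw [Finset.sum_comm]
    refine Finset.sum_congr rfl fun k _ => ?_
    rw [INT.dzb_sum Finset.univ fun j _ =>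
      (INT.smooth_dz (hA.self_of_nhds j k)).differentiableAt (by simp)]
    refine Finset.sum_congr rfl fun j _ => ?_
    exact INT.dz_dzb_comm ((hA.self_of_nhds j k).of_le two_le_inf)
  rw [h3]
  refine Finset.sum_eq_zero fun k _ => ?_
  rw [INT.dzb_congr (hdiv k), INT.dzb_const]

/-- the integral of `w^{n-1} ∧ i∂∂̄χ` vanishes -/
theorem intX_Ag [T2Space X] [CompactSpace X] (hw : IsCanonicalMetric w) {χ : X → ℝ}
    (hχ : SmoothFn (n := n) χ) : intX (BB (Ag w) χ) = 0 := by
  rw [BB_total (Ag_TF hw) hχ (by simp)]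
  refine Finset.sum_eq_zero fun i _ => ?_
  rw [setIntegral_congr_fun (g := fun _ => (0 : ℝ)) ((part n X).e i).open_target.measurableSet]
  · simp
  · intro z hz
    have h := DD_Ag hw (e := (part n X).e i) (x := ((part n X).e i).symm z)
      ⟨(part n X).mem i, ((part n X).e i).map_target hz⟩
    rw [((part n X).e i).right_inv hz] at h
    simp only [h, Complex.zero_re, zero_mul]

/-! ### the weight of a section -/

variable {M : ℕ}

/-- `G = |P|² e^{-M w}` -/
def GG (P : PSec n M X) (w : Chart n X → Cm n → ℝ) (x : X) : ℝ :=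
  ‖P.coeff (chartAt (Cm n) x) (chartAt (Cm n) x x)‖ ^ 2 *
    Real.exp (-(M : ℝ) * w (chartAt (Cm n) x) (chartAt (Cm n) x x))

theorem GG_eq (hw : IsCanonicalMetric w) (P : PSec n M X) {e : Chart n X} {x : X} (hx : At e x) :
    GG P w x = ‖P.coeff e (e x)‖ ^ 2 * Real.exp (-(M : ℝ) * w e (e x)) := by
  have hc : At (chartAt (Cm n) x) x := ⟨chart_mem_atlas _ _, mem_chart_source _ _⟩
  have hd := jacM_det_ne_zero hx hc
  have h1 := P.change e _ x hx hc
  have h2 := hw.change e _ x hx hc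
  rw [GG, h1, h2]
  have h3 : Real.exp (-(M : ℝ) * (w (chartAt (Cm n) x) (chartAt (Cm n) x x) +
      Real.log (‖(jacM e (chartAt (Cm n) x) x).det‖ ^ 2))) =
      Real.exp (-(M : ℝ) * w (chartAt (Cm n) x) (chartAt (Cm n) x x)) *
        (((‖(jacM e (chartAt (Cm n) x) x).det‖ ^ 2) ^ M))⁻¹ := by
    rw [mul_add, Real.exp_add]
    congr 1
    rw [neg_mul, Real.exp_neg, Real.exp_nat_mul, Real.exp_log (by positivity)]
  rw [h3, norm_mul, norm_pow, mul_pow]
  have h4 : (‖(jacM e (chartAt (Cm n) x) x).det‖ ^ M) ^ 2 =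
      (‖(jacM e (chartAt (Cm n) x) x).det‖ ^ 2) ^ M := by ring
  rw [h4]
  have h5 : (‖(jacM e (chartAt (Cm n) x) x).det‖ ^ 2) ^ M ≠ 0 := by positivity
  field_simp

theorem GG_nonneg (P : PSec n M X) (x : X) : 0 ≤ GG P w x := by
  unfold GG; positivity

theorem GG_ne (hw : IsCanonicalMetric w) (P : PSec n M X) {e : Chart n X} {x : X} (hx : At e x) :
    GG P w x ≠ 0 ↔ P.coeff e (e x) ≠ 0 := by
  rw [GG_eq hw P hx]
  constructor
  · intro h h0
    rw [h0] at h; simp at h
  · intro h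
    have := Real.exp_pos (-(M : ℝ) * w e (e x))
    have h2 : 0 < ‖P.coeff e (e x)‖ := norm_pos_iff.2 h
    positivity

theorem GG_ev (hw : IsCanonicalMetric w) (P : PSec n M X) {e : Chart n X} {x : X} (hx : At e x) :
    (fun z => GG P w (e.symm z)) =ᶠ[𝓝 (e x)]
      fun z => ‖P.coeff e z‖ ^ 2 * Real.exp (-(M : ℝ) * w e z) := by
  filter_upwards [hx.nhds_at hx] with z hz
  rw [GG_eq hw P hz.2.1, e.right_inv hz.1]

theorem GG_smooth (hw : IsCanonicalMetric w) (P : PSec n M X) : SmoothFn (n := n) (GG P w) := by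
  intro e x hx
  refine ContDiffAt.congr_of_eventuallyEq ?_ (GG_ev hw P hx)
  have h1 : ContDiffAt ℝ ∞ (P.coeff e) (e x) :=
    ((P.holo e x hx).contDiffAt.restrict_scalars ℝ).of_le (by exact le_top)
  exact (h1.norm_sq ℝ).mul (Real.contDiff_exp.contDiffAt.comp _
    (contDiffAt_const.mul (hw.smooth e x hx)))

theorem GG_continuous (hw : IsCanonicalMetric w) (P : PSec n M X) : Continuous (GG P w) :=
  SmoothFn.continuous (GG_smooth hw P)

/-- `∂ log G` -/
def gd (P : PSec n M X) (w : Chart n X → Cm n → ℝ) (e : Chart n X) (z : Cm n) (j : Fin n) : ℂ :=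
  dz j (fun y => ((Real.log (GG P w (e.symm y)) : ℝ) : ℂ)) z

theorem logG_contDiffAt (hw : IsCanonicalMetric w) (P : PSec n M X) {e : Chart n X} {x : X}
    (hx : At e x) (h0 : GG P w x ≠ 0) :
    ContDiffAt ℝ ∞ (fun y => Real.log (GG P w (e.symm y))) (e x) := by
  refine (GG_smooth hw P e x hx).log ?_
  rwa [e.left_inv hx.2]

/-- off the zeros the form `i∂∂̄ log G` is `-M i∂∂̄w` -/
theorem cHess_logG (hw : IsCanonicalMetric w) (P : PSec n M X) {e : Chart n X} {x : X}
    (hx : At e x) (h0 : GG P w x ≠ 0) :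
    cHess (fun y => Real.log (GG P w (e.symm y))) (e x) = (-(M : ℝ) : ℂ) • cHess (w e) (e x) := by
  have hP0 : P.coeff e (e x) ≠ 0 := (GG_ne hw P hx).1 h0
  have hPe : ∀ᶠ z in 𝓝 (e x), P.coeff e z ≠ 0 :=
    (P.holo e x hx).continuousAt.eventually_ne hP0
  have e1 : (fun y => Real.log (GG P w (e.symm y))) =ᶠ[𝓝 (e x)]
      fun z => Real.log (‖P.coeff e z‖ ^ 2) + -(M : ℝ) * w e z := by
    filter_upwards [GG_ev hw P hx, hPe] with z hz hz0
    rw [hz, Real.log_mul (by positivity) (Real.exp_pos _).ne', Real.log_exp]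
  have hPc : ContDiffAt ℂ ω (P.coeff e) (e x) := (P.holo e x hx).contDiffAt
  have h2 : ContDiffAt ℝ 2 (fun z => Real.log (‖P.coeff e z‖ ^ 2)) (e x) := by
    have h3 : ContDiffAt ℝ 2 (P.coeff e) (e x) := (hPc.restrict_scalars ℝ).of_le (by exact le_top)
    exact (h3.norm_sq ℝ).log (by positivity)
  have h4 : ContDiffAt ℝ 2 (w e) (e x) := (hw.smooth e x hx).of_le two_le_inf
  rw [C2.cHess_congr e1, C2.cHess_add h2 (contDiffAt_const.mul h4), cHess_log_norm_sq hPc hP0,
    C2.cHess_const_mul _ h4, zero_add]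
  push_cast
  rfl

/-- the Hessian of `Θ(log G)` -/
theorem pr_comp (hw : IsCanonicalMetric w) (P : PSec n M X) {e : Chart n X} {x : X}
    (hx : At e x) (h0 : GG P w x ≠ 0) {F : X → ℝ} {Θ Θ₁ : ℝ → ℝ} {Θ₂ : ℝ}
    (hF : ∀ᶠ y in 𝓝 x, F y = Θ (Real.log (GG P w y)))
    (h1 : ∀ᶠ s in 𝓝 (Real.log (GG P w x)), HasDerivAt Θ (Θ₁ s) s)
    (h2 : HasDerivAt Θ₁ Θ₂ (Real.log (GG P w x))) (A : Matrix (Fin n) (Fin n) ℂ) :
    pr A (cHess (fun y => F (e.symm y)) (e x)) =
      -(M : ℝ) * (Θ₁ (Real.log (GG P w x)) : ℂ) * pr A (cHess (w e) (e x)) +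
      (Θ₂ : ℂ) * pr A (Matrix.vecMulVec (gd P w e (e x)) (star (gd P w e (e x)))) := by
  have hs := logG_contDiffAt hw P hx h0
  have e1 : (fun y => F (e.symm y)) =ᶠ[𝓝 (e x)] fun y => Θ (Real.log (GG P w (e.symm y))) :=
    ev_symm hx hF
  have hxx : Real.log (GG P w (e.symm (e x))) = Real.log (GG P w x) := by
    rw [e.left_inv hx.2]
  have h3 : ∀ j k, cHess (fun y => F (e.symm y)) (e x) j k =
      (Θ₁ (Real.log (GG P w x)) : ℂ) * (-(M : ℝ) * cHess (w e) (e x) j k) +
      (Θ₂ : ℂ) * (gd P w e (e x) j * star (gd P w e (e x) k)) := by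
    intro j k
    rw [C2.cHess_congr e1]
    have h4 := C2.cHess_comp (ψ := Θ) (ψ₁ := Θ₁) (ψ₂ := Θ₂)
      (u := fun y => Real.log (GG P w (e.symm y))) (z := e x)
      (by rw [hxx]; exact h1) (by rw [hxx]; exact h2) (hs.of_le two_le_inf) j k
    rw [h4, cHess_logG hw P hx h0, hxx]
    have h5 : dzb k (fun y => ((Real.log (GG P w (e.symm y)) : ℝ) : ℂ)) (e x) =
        star (gd P w e (e x) k) := by
      rw [C2.dzb_real k (hs.differentiableAt (by simp))]
      rfl
    rw [h5, Matrix.smul_apply, smul_eq_mul]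
    rfl
  simp only [pr, h3, Matrix.vecMulVec_apply, Pi.star_apply, Finset.mul_sum, ← Finset.sum_add_distrib]
  refine Finset.sum_congr rfl fun j _ => Finset.sum_congr rfl fun k _ => ?_
  ring

end Vale.Agent.P284.H206.Bog
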