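import Vale.Agent.P284.H206.Bog.Glob2
import Vale.Agent.P284.H206.Bog.Cut

/-!
# P284 (helper206), module BOG: a positive bounded form `A` of type `(n-1,n-1)` with `i∂∂̄A ≥ 0` off
the zeros of a section of a power of the canonical bundle satisfies `i∂∂̄A = 0`
-/

open scoped Manifold ContDiff Topology ComplexOrder ComplexConjugate Matrix
open Filter Set MeasureTheory

noncomputable section

namespace Vale.Agent.P284.H206.Bog

open Vale.Agent.P272.K Vale.Agent.P272.K.INT Vale.Agent.P272.KOD

/-! ### linear algebra -/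

section lin
variable {n : ℕ}

theorem pr_rank (B : Matrix (Fin n) (Fin n) ℂ) (ξ : Fin n → ℂ) :
    pr Bᵀ (Matrix.vecMulVec ξ (star ξ)) = star ξ ⬝ᵥ (B *ᵥ ξ) := by
  simp only [pr, Matrix.transpose_apply, Matrix.vecMulVec_apply, dotProduct, Matrix.mulVec,
    Pi.star_apply, Finset.mul_sum]
  rw [Finset.sum_comm]
  refine Finset.sum_congr rfl fun j _ => Finset.sum_congr rfl fun k _ => ?_
  ring

theorem adj_posSemidef {g : Matrix (Fin n) (Fin n) ℂ} (hg : g.PosDef) :
    g.adjugate.PosSemidef := by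
  have h0 : g.det ≠ 0 := hg.det_pos.ne'
  have h1 : g.adjugate = g.det • g⁻¹ := by
    rw [Matrix.inv_def, smul_smul, Ring.inverse_eq_inv', mul_inv_cancel₀ h0, one_smul]
  rw [h1]
  exact hg.inv.posSemidef.smul hg.det_pos.le

theorem rank_nonneg {g : Matrix (Fin n) (Fin n) ℂ} (hg : g.PosDef) (ξ : Fin n → ℂ) :
    0 ≤ (pr (g.adjugate)ᵀ (Matrix.vecMulVec ξ (star ξ))).re := by
  rw [pr_rank]
  exact (adj_posSemidef hg).re_dotProduct_nonneg ξ

theorem pr_adj (g : Matrix (Fin n) (Fin n) ℂ) : pr (g.adjugate)ᵀ g = n * g.det := by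
  rw [pr_eq_trace, ← Matrix.transpose_mul, Matrix.trace_transpose, Matrix.mul_adjugate,
    Matrix.trace_smul, Matrix.trace_one, smul_eq_mul, mul_comm]
  simp

end lin

variable {n : ℕ} {X : Type*} [TopologicalSpace X] [ChartedSpace (Cm n) X]
  [IsManifold 𝓘(ℂ, Cm n) ω X] {w : Chart n X → Cm n → ℝ} {M : ℕ}

/-- the volume density of `i∂∂̄w` -/
def dg (w : Chart n X → Cm n → ℝ) (e : Chart n X) (z : Cm n) : ℝ := (cHess (w e) z).det.re

theorem dg_density (hw : IsCanonicalMetric w) : IsDensity (dg w) :=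
  (isClosedForm_canonical hw).isDensity

omit [IsManifold 𝓘(ℂ, Cm n) ω X] in
theorem dg_pos (hpos : ∀ e x, At e x → (cHess (w e) (e x)).PosDef) {e : Chart n X} {x : X}
    (hx : At e x) : 0 < dg w e (e x) :=
  (Complex.pos_iff.1 (hpos e x hx).det_pos).1

/-- the gradient energy of `log G` -/
def RR (P : PSec n M X) (w : Chart n X → Cm n → ℝ) (e : Chart n X) (z : Cm n) : ℝ :=
  (pr (Ag w e z) (Matrix.vecMulVec (gd P w e z) (star (gd P w e z)))).re

omit [IsManifold 𝓘(ℂ, Cm n) ω X] in
theorem RR_nonneg (hpos : ∀ e x, At e x → (cHess (w e) (e x)).PosDef) (P : PSec n M X)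
    {e : Chart n X} {x : X} (hx : At e x) : 0 ≤ RR P w e (e x) :=
  rank_nonneg (hpos e x hx) _

/-! ### the functions `log (G + δ)` -/

/-- `log (G + δ)` -/
def Fd (P : PSec n M X) (w : Chart n X → Cm n → ℝ) (δ : ℝ) (x : X) : ℝ := Real.log (GG P w x + δ)

theorem Fd_smooth (hw : IsCanonicalMetric w) (P : PSec n M X) {δ : ℝ} (hδ : 0 < δ) :
    SmoothFn (n := n) (Fd P w δ) := by
  intro e x hx
  refine ContDiffAt.log ((GG_smooth hw P e x hx).add contDiffAt_const) ?_
  have := GG_nonneg (w := w) P (e.symm (e x))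
  positivity

theorem Fd_eq (hw : IsCanonicalMetric w) (P : PSec n M X) {δ : ℝ} {x : X} (h0 : GG P w x ≠ 0) :
    ∀ᶠ y in 𝓝 x, Fd P w δ y = ps δ (Real.log (GG P w y)) := by
  filter_upwards [(GG_continuous hw P).continuousAt.eventually_ne h0] with y hy
  have : 0 < GG P w y := lt_of_le_of_ne (GG_nonneg P y) (Ne.symm hy)
  rw [Fd, ps, Real.exp_log this]

theorem Fd_formula (hw : IsCanonicalMetric w) (P : PSec n M X) {δ : ℝ} (hδ : 0 < δ)
    {e : Chart n X} {x : X} (hx : At e x) (h0 : GG P w x ≠ 0) :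
    BB (Ag w) (Fd P w δ) e (e x) + M * n * dg w e (e x) =
      (1 - ps1 δ (Real.log (GG P w x))) * (M * n * dg w e (e x)) +
        ps2 δ (Real.log (GG P w x)) * RR P w e (e x) := by
  have h := pr_comp hw P hx h0 (Fd_eq (δ := δ) hw P h0)
    (Eventually.of_forall fun s => ps_deriv hδ s) (ps_deriv2 hδ _) (Ag w e (e x))
  have h2 : pr (Ag w e (e x)) (cHess (w e) (e x)) = n * (cHess (w e) (e x)).det := pr_adj _
  rw [h2] at h
  have h3 := congrArg Complex.re h
  rw [Complex.add_re, Complex.re_ofReal_mul] at h3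
  have e1 : (-((M : ℝ) : ℂ) * ((ps1 δ (Real.log (GG P w x)) : ℝ) : ℂ) *
      (n * (cHess (w e) (e x)).det)).re
      = -(M : ℝ) * ps1 δ (Real.log (GG P w x)) * (n * dg w e (e x)) := by
    have : -((M : ℝ) : ℂ) * ((ps1 δ (Real.log (GG P w x)) : ℝ) : ℂ) *
        (n * (cHess (w e) (e x)).det) =
        ((-(M : ℝ) * ps1 δ (Real.log (GG P w x)) * n : ℝ) : ℂ) * (cHess (w e) (e x)).det := by
      push_cast; ring
    rw [this, Complex.re_ofReal_mul, dg]
    ring
  have h4 : (-(↑(M : ℝ) : ℂ) * ↑(ps1 δ (Real.log (GG P w x))) *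
      (n * (cHess (w e) (e x)).det)).re = (-((M : ℝ) : ℂ) * ((ps1 δ (Real.log (GG P w x)) : ℝ) : ℂ) *
      (n * (cHess (w e) (e x)).det)).re := rfl
  unfold BB RR
  rw [h3, e1]
  ring

theorem Fd_ge (hw : IsCanonicalMetric w) (hpos : ∀ e x, At e x → (cHess (w e) (e x)).PosDef)
    (P : PSec n M X) {δ : ℝ} (hδ : 0 < δ) {e : Chart n X} {x : X} (hx : At e x)
    (h0 : GG P w x ≠ 0) :
    ps2 δ (Real.log (GG P w x)) * RR P w e (e x) ≤
      BB (Ag w) (Fd P w δ) e (e x) + M * n * dg w e (e x) := by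
  rw [Fd_formula hw P hδ hx h0]
  have h1 := ps1_le hδ (Real.log (GG P w x))
  have h2 := (dg_pos hpos hx).le
  have h3 : 0 ≤ (1 - ps1 δ (Real.log (GG P w x))) * (M * n * dg w e (e x)) := by
    apply mul_nonneg (by linarith) (by positivity)
  linarith

/-- the section does not vanish on a dense set -/
theorem GG_dense [ConnectedSpace X] (hw : IsCanonicalMetric w) (P : PSec n M X)
    (hP : ∃ e x, At e x ∧ P.coeff e (e x) ≠ 0) {e : Chart n X} {x : X} (hx : At e x) :
    ∃ᶠ z in 𝓝 (e x), GG P w (e.symm z) ≠ 0 := by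
  intro hcon
  obtain ⟨e', x', hx', h'⟩ := hP
  apply h'
  refine H812.ident P hx ?_ hx'
  have h1 : ∀ᶠ z in 𝓝 (e x), GG P w (e.symm z) = 0 := by
    simpa using hcon
  filter_upwards [h1, hx.nhds_at hx] with z hz hz2
  by_contra h
  have := (GG_ne hw P hz2.2.1).2 (by rwa [e.right_inv hz2.1])
  exact this hz

theorem Fd_nonneg [ConnectedSpace X] (hw : IsCanonicalMetric w)
    (hpos : ∀ e x, At e x → (cHess (w e) (e x)).PosDef)
    (P : PSec n M X) (hP : ∃ e x, At e x ∧ P.coeff e (e x) ≠ 0) {δ : ℝ} (hδ : 0 < δ)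
    {e : Chart n X} {x : X} (hx : At e x) :
    0 ≤ BB (Ag w) (Fd P w δ) e (e x) + M * n * dg w e (e x) := by
  have hD : IsDensity (fun e z => BB (Ag w) (Fd P w δ) e z + M * n * dg w e z) :=
    (BB_density (Ag_TF hw) (Fd_smooth hw P hδ) (by simp)).add ((dg_density hw).const_mul (M * n))
  have hc := hD.cont e x hx
  by_contra hcon
  push Not at hcon
  have h1 := hc.eventually_lt continuousAt_const hcon
  obtain ⟨z, hz1, hz2, hz3⟩ := ((GG_dense hw P hP hx).and_eventually (h1.and (hx.nhds_at hx))).exists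
  have h2 := Fd_ge hw hpos P hδ hz3.2.1 hz1
  have h3 := RR_nonneg hpos P hz3.2.1
  have h4 := ps2_nonneg hδ (Real.log (GG P w (e.symm z)))
  rw [e.right_inv hz3.1] at h2 h3
  have h5 := mul_nonneg h4 h3
  linarith

/-! ### the cut-off -/

/-- the cut-off function -/
def ch (P : PSec n M X) (w : Chart n X → Cm n → ℝ) (j : ℕ) (x : X) : ℝ := cut j (GG P w x)

theorem ch_smooth (hw : IsCanonicalMetric w) (P : PSec n M X) {j : ℕ} (hj : 0 < j) :
    SmoothFn (n := n) (ch P w j) := by
  intro e x hx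
  exact (cut_contDiff hj).contDiffAt.comp (e x) (GG_smooth hw P e x hx)

theorem ch_near_zero (hw : IsCanonicalMetric w) (P : PSec n M X) {j : ℕ} (hj : 0 < j) {x : X}
    (h0 : GG P w x = 0) : x ∉ tsupport (ch P w j) := by
  rw [notMem_tsupport_iff_eventuallyEq]
  have h1 : ∀ᶠ y in 𝓝 x, GG P w y < Real.exp (-(2 * j)) := by
    refine (GG_continuous hw P).continuousAt.eventually_lt continuousAt_const ?_
    rw [h0]; exact Real.exp_pos _
  filter_upwards [h1] with y hy
  exact cut_zero hj hy

/-- the zero set of the section -/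
def ZS (P : PSec n M X) (w : Chart n X → Cm n → ℝ) : Set X := {x | GG P w x = 0}

theorem ch_disj (hw : IsCanonicalMetric w) (P : PSec n M X) {j : ℕ} (hj : 0 < j) :
    tsupport (ch P w j) ∩ ZS P w = ∅ := by
  ext x
  simp only [mem_inter_iff, mem_empty_iff_false, iff_false, not_and]
  intro h1 h2
  exact ch_near_zero hw P hj h2 h1

theorem ch_eq (hw : IsCanonicalMetric w) (P : PSec n M X) {j : ℕ} {x : X} (h0 : GG P w x ≠ 0) :
    ∀ᶠ y in 𝓝 x, ch P w j y = TT j (Real.log (GG P w y)) := by
  filter_upwards [(GG_continuous hw P).continuousAt.eventually_ne h0] with y hy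
  exact cut_eq (lt_of_le_of_ne (GG_nonneg P y) (Ne.symm hy))

variable {A : Chart n X → Cm n → Matrix (Fin n) (Fin n) ℂ} {C K : ℝ}

/-- the majorant -/
def Maj (P : PSec n M X) (w : Chart n X → Cm n → ℝ) (C K : ℝ) (j : ℕ) (e : Chart n X) (z : Cm n) : ℝ :=
  (M * K * C / j) * dg w e z + (16 * K * C / j ^ 2) *
    ∑ i ∈ Finset.range (j + 1), (BB (Ag w) (Fd P w (Real.exp (-((j + i : ℕ) : ℝ)))) e z +
      M * n * dg w e z)

theorem Maj_density (hw : IsCanonicalMetric w) (P : PSec n M X) (j : ℕ) :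
    IsDensity (Maj P w C K j) := by
  refine ((dg_density hw).const_mul _).add (IsDensity.const_mul (IsDensity.sum _ fun i _ => ?_) _)
  exact (BB_density (Ag_TF hw) (Fd_smooth hw P (Real.exp_pos _)) (by simp)).add
    ((dg_density hw).const_mul (M * n))

theorem BB_le_Maj [ConnectedSpace X] (hw : IsCanonicalMetric w)
    (hpos : ∀ e x, At e x → (cHess (w e) (e x)).PosDef)
    (P : PSec n M X) (hP : ∃ e x, At e x ∧ P.coeff e (e x) ≠ 0) (hC : 0 ≤ C) (hK0 : 0 ≤ K)
    (hK : ∀ t, |deriv sT t| ≤ K ∧ |deriv (deriv sT) t| ≤ K)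
    (hb1 : ∀ e x, At e x → GG P w x ≠ 0 → ∀ ξ : Fin n → ℂ,
      |(pr (A e (e x)) (Matrix.vecMulVec ξ (star ξ))).re| ≤
        C * (pr (Ag w e (e x)) (Matrix.vecMulVec ξ (star ξ))).re)
    (hb2 : ∀ e x, At e x → GG P w x ≠ 0 → |(pr (A e (e x)) (cHess (w e) (e x))).re| ≤
      C * dg w e (e x))
    {j : ℕ} (hj : 0 < j) {e : Chart n X} {x : X} (hx : At e x) :
    BB A (ch P w j) e (e x) ≤ Maj P w C K j e (e x) := by
  have hj' : (0 : ℝ) < j := by exact_mod_cast hj
  have hdg := (dg_pos hpos hx).le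
  have hsum : ∀ i ∈ Finset.range (j + 1), 0 ≤
      BB (Ag w) (Fd P w (Real.exp (-((j + i : ℕ) : ℝ)))) e (e x) + M * n * dg w e (e x) :=
    fun i _ => Fd_nonneg hw hpos P hP (Real.exp_pos _) hx
  have hMaj0 : 0 ≤ (16 * K * C / j ^ 2) *
    ∑ i ∈ Finset.range (j + 1), (BB (Ag w) (Fd P w (Real.exp (-((j + i : ℕ) : ℝ)))) e (e x) +
      M * n * dg w e (e x)) := mul_nonneg (by positivity) (Finset.sum_nonneg hsum)
  by_cases h0 : GG P w x = 0
  · have h1 : BB A (ch P w j) e (e x) = 0 := by
      unfold BB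
      rw [(cHess_off hx (ch_near_zero hw P hj h0)).self_of_nhds]
      simp [pr]
    rw [h1, Maj]
    have : 0 ≤ (M * K * C / j) * dg w e (e x) := by positivity
    linarith
  · have h := pr_comp hw P hx h0 (ch_eq (j := j) hw P h0)
      (Eventually.of_forall fun s => TT_deriv j s) (TT_deriv2 j _) (A e (e x))
    have h' := congrArg Complex.re h
    rw [Complex.add_re, Complex.re_ofReal_mul] at h'
    have hge : ∀ i : ℕ, ps2 (Real.exp (-((j + i : ℕ) : ℝ))) (Real.log (GG P w x)) *
        RR P w e (e x) ≤ BB (Ag w) (Fd P w (Real.exp (-((j + i : ℕ) : ℝ)))) e (e x) +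
          M * n * dg w e (e x) := fun i => Fd_ge hw hpos P (Real.exp_pos _) hx h0
    generalize Real.log (GG P w x) = u at h' hge
    set ξ := gd P w e (e x) with hξ
    have ha' : |(pr (A e (e x)) (cHess (w e) (e x))).re| ≤ C * dg w e (e x) := hb2 e x hx h0
    have hb' : |(pr (A e (e x)) (Matrix.vecMulVec ξ (star ξ))).re| ≤ C * RR P w e (e x) :=
      hb1 e x hx h0 ξ
    have hRR := RR_nonneg hpos P hx
    obtain ⟨hK1, hK2⟩ := hK (u / j + 2)
    by_cases hin : u / j + 2 ∈ Icc (0 : ℝ) 1
    · -- the gradient term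
      have hu1 : (j : ℝ) ≤ -u := by
        have h3 := hin.2
        have h4 : u / j ≤ -1 := by linarith
        rw [div_le_iff₀ hj'] at h4; linarith
      have hu2 : -u ≤ 2 * j := by
        have h3 := hin.1
        have h4 : -2 ≤ u / j := by linarith
        rw [le_div_iff₀ hj'] at h4; linarith
      obtain ⟨m, hm1, hm2, hmj, hm2j⟩ : ∃ m : ℕ, -(m : ℝ) ≤ u ∧ u ≤ -(m : ℝ) + 1 ∧ j ≤ m ∧
          m ≤ 2 * j := by
        refine ⟨⌈-u⌉₊, ?_, ?_, ?_, ?_⟩
        · have := Nat.le_ceil (-u); linarith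
        · have := Nat.ceil_lt_add_one (show 0 ≤ -u by linarith); linarith
        · have h1 := Nat.le_ceil (-u)
          have : (j : ℝ) ≤ ⌈-u⌉₊ := by linarith
          exact_mod_cast this
        · rw [Nat.ceil_le]; push_cast; exact hu2
      have hRRle : RR P w e (e x) ≤ 16 * ∑ i ∈ Finset.range (j + 1),
          (BB (Ag w) (Fd P w (Real.exp (-((j + i : ℕ) : ℝ)))) e (e x) +
            M * n * dg w e (e x)) := by
        have h5 := Finset.single_le_sum hsum (show m - j ∈ Finset.range (j + 1) by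
          rw [Finset.mem_range]; omega)
        have h6 := hge (m - j)
        have h7 : j + (m - j) = m := by omega
        rw [h7] at h5 h6
        have h8 := ps2_lower hm1 hm2
        have h9 := mul_le_mul_of_nonneg_right h8 hRR
        linarith
      have t1 : (-((M : ℝ) : ℂ) * ((deriv sT (u / j + 2) * (1 / j) : ℝ) : ℂ) *
            pr (A e (e x)) (cHess (w e) (e x))).re ≤ (M * K * C / j) * dg w e (e x) := by
        have e1 : (-((M : ℝ) : ℂ) * ((deriv sT (u / j + 2) * (1 / j) : ℝ) : ℂ) *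
            pr (A e (e x)) (cHess (w e) (e x))).re =
            (-(M : ℝ) * (deriv sT (u / j + 2) * (1 / j))) *
              (pr (A e (e x)) (cHess (w e) (e x))).re := by
          rw [← Complex.re_ofReal_mul]; push_cast; ring_nf
        rw [e1]
        refine (le_abs_self _).trans ?_
        rw [abs_mul, abs_mul, abs_neg, abs_mul, abs_of_nonneg (Nat.cast_nonneg M),
          abs_of_pos (show (0 : ℝ) < 1 / j by positivity)]
        calc (M : ℝ) * (|deriv sT (u / j + 2)| * (1 / j)) *
              |(pr (A e (e x)) (cHess (w e) (e x))).re|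
            ≤ (M : ℝ) * (K * (1 / j)) * (C * dg w e (e x)) := by
              gcongr
          _ = _ := by ring
      have t2 : deriv (deriv sT) (u / j + 2) * (1 / j) * (1 / j) *
          (pr (A e (e x)) (Matrix.vecMulVec ξ (star ξ))).re ≤
          (K * C / j ^ 2) * RR P w e (e x) := by
        refine (le_abs_self _).trans ?_
        rw [abs_mul, abs_mul, abs_mul, abs_of_pos (show (0 : ℝ) < 1 / j by positivity)]
        calc |deriv (deriv sT) (u / j + 2)| * (1 / j) * (1 / j) *
              |(pr (A e (e x)) (Matrix.vecMulVec ξ (star ξ))).re|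
            ≤ K * (1 / j) * (1 / j) * (C * RR P w e (e x)) := by
              gcongr
          _ = _ := by ring
      have t3 : (K * C / j ^ 2) * RR P w e (e x) ≤ (16 * K * C / j ^ 2) *
          ∑ i ∈ Finset.range (j + 1),
          (BB (Ag w) (Fd P w (Real.exp (-((j + i : ℕ) : ℝ)))) e (e x) +
            M * n * dg w e (e x)) := by
        calc _ ≤ (K * C / j ^ 2) * (16 * ∑ i ∈ Finset.range (j + 1),
          (BB (Ag w) (Fd P w (Real.exp (-((j + i : ℕ) : ℝ)))) e (e x) +
            M * n * dg w e (e x))) := mul_le_mul_of_nonneg_left hRRle (by positivity)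
          _ = _ := by ring
      have h10 : BB A (ch P w j) e (e x) = _ := h'
      rw [h10, Maj]
      linarith
    · obtain ⟨h5, h6⟩ := deriv_off' hin
      rw [h5, h6] at h'
      have h7 : BB A (ch P w j) e (e x) = 0 := by
        unfold BB
        rw [h']
        simp
      rw [h7, Maj]
      have : 0 ≤ (M * K * C / j) * dg w e (e x) := by positivity
      linarith

section
variable [T2Space X] [CompactSpace X]

theorem intX_Maj (hw : IsCanonicalMetric w) (P : PSec n M X) (j : ℕ) :
    intX (Maj P w C K j) = (M * K * C / j) * intX (dg w) +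
      (16 * K * C / j ^ 2) * ((j + 1) * (M * n * intX (dg w))) := by
  have h0 : ∀ i : ℕ, IsDensity fun e z => BB (Ag w) (Fd P w (Real.exp (-((j + i : ℕ) : ℝ)))) e z +
      M * n * dg w e z := fun i =>
    (BB_density (Ag_TF hw) (Fd_smooth hw P (Real.exp_pos _)) (by simp)).add
    ((dg_density hw).const_mul (M * n))
  have h1 : ∀ i : ℕ, intX (fun e z => BB (Ag w) (Fd P w (Real.exp (-((j + i : ℕ) : ℝ)))) e z +
      M * n * dg w e z) = M * n * intX (dg w) := by
    intro i
    rw [intX_add (BB_density (Ag_TF hw) (Fd_smooth hw P (Real.exp_pos _)) (by simp))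
      ((dg_density hw).const_mul (M * n)), intX_const_mul, intX_Ag hw (Fd_smooth hw P (Real.exp_pos _)),
      zero_add]
  unfold Maj
  rw [intX_add ((dg_density hw).const_mul _) (IsDensity.const_mul (IsDensity.sum _ fun i _ => h0 i) _),
    intX_const_mul, intX_const_mul, intX_sum _ fun i _ => h0 i]
  rw [Finset.sum_congr rfl fun i _ => h1 i, Finset.sum_const, Finset.card_range, nsmul_eq_mul,
    Nat.cast_add, Nat.cast_one]

/-- **The vanishing theorem.**  A bounded form `A` of type `(n-1,n-1)`, smooth off the zeros of a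
section of a power of the canonical bundle, with `i∂∂̄A ≥ 0` there, has `i∂∂̄A = 0` there. -/
theorem DD_zero [ConnectedSpace X] (hw : IsCanonicalMetric w)
    (hpos : ∀ e x, At e x → (cHess (w e) (e x)).PosDef)
    (P : PSec n M X) (hP : ∃ e x, At e x ∧ P.coeff e (e x) ≠ 0) (hC : 0 ≤ C)
    (hA : TF (ZS P w) A)
    (hb1 : ∀ e x, At e x → GG P w x ≠ 0 → ∀ ξ : Fin n → ℂ,
      |(pr (A e (e x)) (Matrix.vecMulVec ξ (star ξ))).re| ≤
        C * (pr (Ag w e (e x)) (Matrix.vecMulVec ξ (star ξ))).re)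
    (hb2 : ∀ e x, At e x → GG P w x ≠ 0 → |(pr (A e (e x)) (cHess (w e) (e x))).re| ≤
      C * dg w e (e x))
    (hDD : ∀ e x, At e x → GG P w x ≠ 0 → 0 ≤ (DD (A e) (e x)).re)
    {x : X} (hx0 : GG P w x ≠ 0) {i : Fin (part n X).N} (hi : 0 < (part n X).ρ i x) :
    (DD (A ((part n X).e i)) ((part n X).e i x)).re = 0 := by
  obtain ⟨K, hK0, hK⟩ := exists_bound
  set e := (part n X).e i with he
  have hxs : x ∈ e.source := (part n X).supp i (subset_tsupport _ (by
    simp only [Function.mem_support]; exact hi.ne'))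
  have hx : At e x := ⟨(part n X).mem i, hxs⟩
  by_contra hne
  have hp0 : 0 < (DD (A e) (e x)).re := lt_of_le_of_ne (hDD e x hx hx0) (Ne.symm hne)
  have hG0 : 0 < GG P w x := lt_of_le_of_ne (GG_nonneg P x) (Ne.symm hx0)
  set F : Cm n → ℝ := fun z => (DD (A e) z).re * (part n X).ρ i (e.symm z) with hF
  have hFc : ContinuousAt F (e x) := by
    refine ContinuousAt.mul ?_ (((part n X).smooth i e x hx).continuousAt)
    refine Complex.continuous_re.continuousAt.comp ?_
    unfold DD
    exact tendsto_finsetSum _ fun j _ => tendsto_finsetSum _ fun k _ =>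
      (INT.smooth_dz (INT.smooth_dzb (hA.smooth e x hx hx0 j k))).continuousAt
  have hF0 : 0 < F (e x) := by
    rw [hF]
    simp only
    rw [e.left_inv hxs]
    exact mul_pos hp0 hi
  have hGc : ContinuousAt (fun z => GG P w (e.symm z)) (e x) := (GG_smooth hw P e x hx).continuousAt
  have hGv : GG P w x / 2 < GG P w (e.symm (e x)) := by rw [e.left_inv hxs]; linarith
  have hev : ∀ᶠ z in 𝓝 (e x), z ∈ e.target ∧ F (e x) / 2 < F z ∧
      GG P w x / 2 < GG P w (e.symm z) := by
    filter_upwards [e.open_target.mem_nhds (e.map_source hxs),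
      continuousAt_const.eventually_lt hFc (show F (e x) / 2 < F (e x) by linarith),
      continuousAt_const.eventually_lt hGc hGv] with z h1 h2 h3
    exact ⟨h1, h2, h3⟩
  obtain ⟨r, hr, hball⟩ := Metric.eventually_nhds_iff_ball.1 hev
  have hvol : 0 < (volume : Measure (Cm n)).real (Metric.ball (e x) r) :=
    ENNReal.toReal_pos (Metric.measure_ball_pos volume _ hr).ne' measure_ball_lt_top.ne
  set c : ℝ := F (e x) / 2 * (volume : Measure (Cm n)).real (Metric.ball (e x) r) with hc
  have hc0 : 0 < c := by positivity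
  have key : ∀ j : ℕ, 0 < j → Real.exp (-(j : ℝ)) ≤ GG P w x / 2 →
      c ≤ intX (Maj P w C K j) := by
    intro j hj hjG
    have hch := ch_smooth (n := n) hw P hj
    have hdis := ch_disj hw P hj
    have k1 : intX (BB A (ch P w j)) ≤ intX (Maj P w C K j) :=
      intX_mono (BB_density hA hch hdis) (Maj_density hw P j) fun e x hx =>
        BB_le_Maj hw hpos P hP hC hK0 hK hb1 hb2 hj hx
    refine le_trans ?_ k1
    rw [BB_total hA hch hdis]
    -- the terms are nonnegative
    have hnn : ∀ i', ∀ z ∈ ((part n X).e i').target, 0 ≤ (DD (A ((part n X).e i')) z).re *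
        ((part n X).ρ i' (((part n X).e i').symm z) * ch P w j (((part n X).e i').symm z)) := by
      intro i' z hz
      have hz' : At ((part n X).e i') (((part n X).e i').symm z) := ⟨(part n X).mem i', ((part n X).e i').map_target hz⟩
      by_cases h0 : GG P w (((part n X).e i').symm z) = 0
      · have : ch P w j (((part n X).e i').symm z) = 0 :=
          image_eq_zero_of_notMem_tsupport (ch_near_zero hw P hj h0)
        rw [this, mul_zero, mul_zero]
      · have h1 := hDD _ _ hz' h0
        rw [((part n X).e i').right_inv hz] at h1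
        exact mul_nonneg h1 (mul_nonneg ((part n X).nonneg i' _) (cut_nonneg _ _))
    have hsum : ∫ z in ((part n X).e i).target, (DD (A ((part n X).e i)) z).re *
        ((part n X).ρ i (((part n X).e i).symm z) * ch P w j (((part n X).e i).symm z)) ≤
        ∑ i', ∫ z in ((part n X).e i').target, (DD (A ((part n X).e i')) z).re *
        ((part n X).ρ i' (((part n X).e i').symm z) * ch P w j (((part n X).e i').symm z)) :=
      Finset.single_le_sum (f := fun i' => ∫ z in ((part n X).e i').target, (DD (A ((part n X).e i')) z).re *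
        ((part n X).ρ i' (((part n X).e i').symm z) * ch P w j (((part n X).e i').symm z)))
        (fun i' _ => setIntegral_nonneg ((part n X).e i').open_target.measurableSet (hnn i'))
        (Finset.mem_univ i)
    refine le_trans ?_ hsum
    have hint : IntegrableOn (fun z => (DD (A e) z).re *
        ((fun y => (part n X).ρ i y * ch P w j y) (e.symm z))) e.target :=
      DD_integrable hA (χ := fun y => (part n X).ρ i y * ch P w j y) (SmoothFn.mul ((part n X).smooth i) hch)
        (inter_empty hdis) hx.1 (tsupport_mul_subset_left'.trans ((part n X).supp i))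
    have hsub : Metric.ball (e x) r ⊆ e.target := fun z hz => (hball z hz).1
    have h2 : ∫ z in Metric.ball (e x) r, (DD (A e) z).re * ((part n X).ρ i (e.symm z) * ch P w j (e.symm z))
        ≤ ∫ z in e.target, (DD (A e) z).re * ((part n X).ρ i (e.symm z) * ch P w j (e.symm z)) := by
      refine setIntegral_mono_set hint ?_ (Eventually.of_forall hsub)
      filter_upwards [self_mem_ae_restrict e.open_target.measurableSet] with z hz
      exact hnn i z hz
    refine le_trans ?_ h2
    have h3 : ∫ _z in Metric.ball (e x) r, F (e x) / 2 = c := by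
      rw [setIntegral_const, smul_eq_mul, mul_comm]
    rw [← h3]
    refine setIntegral_mono_on (integrableOn_const measure_ball_lt_top.ne) (hint.mono_set hsub)
      measurableSet_ball fun z hz => ?_
    obtain ⟨g1, g2, g3⟩ := hball z hz
    have g4 : ch P w j (e.symm z) = 1 := cut_one hj (hjG.trans g3.le)
    show F (e x) / 2 ≤ (DD (A e) z).re * ((part n X).ρ i (e.symm z) * ch P w j (e.symm z))
    rw [g4, mul_one]
    exact g2.le
  -- the limit
  set V := intX (dg w) with hV
  have hV0 : 0 ≤ V := intX_nonneg fun e x hx => (dg_pos hpos hx).le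
  set D : ℝ := M * K * C * V + 32 * K * C * (M * n * V) with hD
  have hD0 : 0 ≤ D := by positivity
  have hup : ∀ j : ℕ, 0 < j → intX (Maj P w C K j) ≤ D / j := by
    intro j hj
    have hj' : (0 : ℝ) < j := by exact_mod_cast hj
    have hj1 : (1 : ℝ) ≤ j := by exact_mod_cast hj
    rw [intX_Maj hw P j, ← hV, le_div_iff₀ hj', hD]
    have h1 : (M * K * C / j * V + 16 * K * C / j ^ 2 * ((j + 1) * (M * n * V))) * j =
        M * K * C * V + 16 * K * C * (M * n * V) * ((j + 1) / j) := by
      field_simp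
    rw [h1]
    have h2 : ((j : ℝ) + 1) / j ≤ 2 := by
      rw [div_le_iff₀ hj']; linarith
    have h3 : 0 ≤ 16 * K * C * (M * n * V) := by positivity
    nlinarith [mul_le_mul_of_nonneg_left h2 h3]
  obtain ⟨j1, hj1⟩ := exists_nat_gt (-(Real.log (GG P w x / 2)))
  obtain ⟨j2, hj2⟩ := exists_nat_gt (D / c)
  set j := max 1 (max j1 j2) with hj
  have hjp : 0 < j := lt_of_lt_of_le one_pos (le_max_left _ _)
  have hj1' : (j1 : ℝ) ≤ j := by exact_mod_cast (le_max_left _ _).trans (le_max_right _ _)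
  have hj2' : (j2 : ℝ) ≤ j := by exact_mod_cast (le_max_right _ _).trans (le_max_right _ _)
  have g1 : Real.exp (-(j : ℝ)) ≤ GG P w x / 2 := by
    rw [← Real.le_log_iff_exp_le (by linarith)]
    linarith
  have g2 := (key j hjp g1).trans (hup j hjp)
  have hj' : (0 : ℝ) < j := by exact_mod_cast hjp
  rw [le_div_iff₀ hj'] at g2
  have g3 : D / c < j := hj2.trans_le hj2'
  rw [div_lt_iff₀ hc0] at g3
  linarith

end

end Vale.Agent.P284.H206.Bog
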