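import Vale.Agent.P272.K.INT.Global
import Vale.Agent.P272.K.C2.Wirt

/-!
# P284 (helper206), module BOG: local integration by parts
-/

open scoped Manifold ContDiff Topology ComplexOrder ComplexConjugate
open Filter Set MeasureTheory

noncomputable section

namespace Vale.Agent.P284.H206.Bog

open Vale.Agent.P272.K

variable {n : ℕ}

section
variable {U : Set (Cm n)} {F ρ : Cm n → ℂ}

theorem ev_zero {z : Cm n} (hz : z ∉ tsupport ρ) : ρ =ᶠ[𝓝 z] fun _ => 0 :=
  notMem_tsupport_iff_eventuallyEq.1 hz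

theorem dz_off (j : Fin n) {z : Cm n} (hz : z ∉ tsupport ρ) : dz j ρ =ᶠ[𝓝 z] fun _ => 0 := by
  refine (INT.dz_congr' (ev_zero hz)).trans ?_
  filter_upwards with y
  exact INT.dz_const 0

theorem dzb_off (j : Fin n) {z : Cm n} (hz : z ∉ tsupport ρ) : dzb j ρ =ᶠ[𝓝 z] fun _ => 0 := by
  refine (INT.dzb_congr' (ev_zero hz)).trans ?_
  filter_upwards with y
  exact INT.dzb_const 0

/-- a function which is continuous on `U` times one with compact support in `U` -/
theorem cont_mul {F G : Cm n → ℂ} {K : Set (Cm n)} (hK : K ⊆ U)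
    (hF : ∀ z ∈ U, ContinuousAt F z) (hG : Continuous G) (hG0 : ∀ z ∉ K, G =ᶠ[𝓝 z] fun _ => 0) :
    Continuous fun z => F z * G z := by
  rw [continuous_iff_continuousAt]
  intro z
  by_cases hz : z ∈ K
  · exact (hF z (hK hz)).mul hG.continuousAt
  · have : (fun z => F z * G z) =ᶠ[𝓝 z] fun _ => 0 := by
      filter_upwards [hG0 z hz] with y hy
      rw [hy, mul_zero]
    exact continuousAt_const.congr this.symm

theorem integrable_mul {F G : Cm n → ℂ} {K : Set (Cm n)} (hKc : IsCompact K) (hK : K ⊆ U)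
    (hF : ∀ z ∈ U, ContinuousAt F z) (hG : Continuous G) (hG0 : ∀ z ∉ K, G =ᶠ[𝓝 z] fun _ => 0) :
    Integrable fun z => F z * G z :=
  (cont_mul hK hF hG hG0).integrable_of_hasCompactSupport
    (HasCompactSupport.intro hKc fun z hz => by rw [(hG0 z hz).self_of_nhds, mul_zero])

/-- integration by parts for `∂_j` -/
theorem ibp_dz (j : Fin n) (hF : ∀ z ∈ U, ContDiffAt ℝ 1 F z)
    (hρ : ContDiff ℝ 1 ρ) (hc : HasCompactSupport ρ) (hs : tsupport ρ ⊆ U) :
    ∫ z, F z * dz j ρ z = -∫ z, dz j F z * ρ z := by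
  have hg : ContDiff ℝ 1 fun z => F z * ρ z := by
    rw [contDiff_iff_contDiffAt]
    intro z
    by_cases hz : z ∈ tsupport ρ
    · exact (hF z (hs hz)).mul hρ.contDiffAt
    · have : (fun z => F z * ρ z) =ᶠ[𝓝 z] fun _ => 0 := by
        filter_upwards [ev_zero hz] with y hy
        rw [hy, mul_zero]
      exact contDiffAt_const.congr_of_eventuallyEq this
  have hgc : HasCompactSupport fun z => F z * ρ z := hc.mul_left
  have h0 := INT.integral_dz_eq_zero hg hgc j
  have hdzρ : Continuous (dz j ρ) := by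
    rw [continuous_iff_continuousAt]
    intro z
    exact (INT.contDiffAt_dz (m := 0) hρ.contDiffAt (by norm_num)).continuousAt
  have hFc : ∀ z ∈ U, ContinuousAt F z := fun z hz => (hF z hz).continuousAt
  have hFd : ∀ z ∈ U, ContinuousAt (dz j F) z := fun z hz =>
    (INT.contDiffAt_dz (m := 0) (hF z hz) (by norm_num)).continuousAt
  have h1 : Integrable fun z => F z * dz j ρ z :=
    integrable_mul hc hs hFc hdzρ fun z hz => dz_off j hz
  have h2 : Integrable fun z => dz j F z * ρ z :=
    integrable_mul hc hs hFd hρ.continuous fun z hz => ev_zero hz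
  have e : ∀ z, dz j (fun z => F z * ρ z) z = F z * dz j ρ z + dz j F z * ρ z := by
    intro z
    by_cases hz : z ∈ tsupport ρ
    · rw [INT.dz_mul ((hF z (hs hz)).differentiableAt (by norm_num))
        (hρ.differentiable (by norm_num) z)]
      ring
    · have h3 : (fun z => F z * ρ z) =ᶠ[𝓝 z] fun _ => 0 := by
        filter_upwards [ev_zero hz] with y hy
        rw [hy, mul_zero]
      rw [INT.dz_congr h3, INT.dz_const, (dz_off j hz).self_of_nhds, (ev_zero hz).self_of_nhds]
      simp
  simp only [e] at h0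
  rw [integral_add h1 h2] at h0
  linear_combination h0

/-- integration by parts for `∂̄_j` -/
theorem ibp_dzb (j : Fin n) (hF : ∀ z ∈ U, ContDiffAt ℝ 1 F z)
    (hρ : ContDiff ℝ 1 ρ) (hc : HasCompactSupport ρ) (hs : tsupport ρ ⊆ U) :
    ∫ z, F z * dzb j ρ z = -∫ z, dzb j F z * ρ z := by
  have hg : ContDiff ℝ 1 fun z => F z * ρ z := by
    rw [contDiff_iff_contDiffAt]
    intro z
    by_cases hz : z ∈ tsupport ρ
    · exact (hF z (hs hz)).mul hρ.contDiffAt
    · have : (fun z => F z * ρ z) =ᶠ[𝓝 z] fun _ => 0 := by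
        filter_upwards [ev_zero hz] with y hy
        rw [hy, mul_zero]
      exact contDiffAt_const.congr_of_eventuallyEq this
  have hgc : HasCompactSupport fun z => F z * ρ z := hc.mul_left
  have h0 := INT.integral_dzb_eq_zero hg hgc j
  have hdzρ : Continuous (dzb j ρ) := by
    rw [continuous_iff_continuousAt]
    intro z
    exact (INT.contDiffAt_dzb (m := 0) hρ.contDiffAt (by norm_num)).continuousAt
  have hFc : ∀ z ∈ U, ContinuousAt F z := fun z hz => (hF z hz).continuousAt
  have hFd : ∀ z ∈ U, ContinuousAt (dzb j F) z := fun z hz =>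
    (INT.contDiffAt_dzb (m := 0) (hF z hz) (by norm_num)).continuousAt
  have h1 : Integrable fun z => F z * dzb j ρ z :=
    integrable_mul hc hs hFc hdzρ fun z hz => dzb_off j hz
  have h2 : Integrable fun z => dzb j F z * ρ z :=
    integrable_mul hc hs hFd hρ.continuous fun z hz => ev_zero hz
  have e : ∀ z, dzb j (fun z => F z * ρ z) z = F z * dzb j ρ z + dzb j F z * ρ z := by
    intro z
    by_cases hz : z ∈ tsupport ρ
    · rw [INT.dzb_mul ((hF z (hs hz)).differentiableAt (by norm_num))
        (hρ.differentiable (by norm_num) z)]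
      ring
    · have h3 : (fun z => F z * ρ z) =ᶠ[𝓝 z] fun _ => 0 := by
        filter_upwards [ev_zero hz] with y hy
        rw [hy, mul_zero]
      rw [INT.dzb_congr h3, INT.dzb_const, (dzb_off j hz).self_of_nhds, (ev_zero hz).self_of_nhds]
      simp
  simp only [e] at h0
  rw [integral_add h1 h2] at h0
  linear_combination h0

/-- the double divergence `Σ ∂_j ∂̄_k A_{jk}` -/
def DD (A : Cm n → Matrix (Fin n) (Fin n) ℂ) (z : Cm n) : ℂ :=
  ∑ j, ∑ k, dz j (dzb k fun y => A y j k) z

/-- the pairing `Σ A_{jk} ∂_j ∂̄_k ρ` -/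
def pr (A : Matrix (Fin n) (Fin n) ℂ) (H : Matrix (Fin n) (Fin n) ℂ) : ℂ :=
  ∑ j, ∑ k, A j k * H j k

/-- double integration by parts -/
theorem ibp_dd {A : Cm n → Matrix (Fin n) (Fin n) ℂ} {ρ : Cm n → ℝ}
    (hA : ∀ z ∈ U, ∀ j k, ContDiffAt ℝ ∞ (fun y => A y j k) z)
    (hρ : ContDiff ℝ ∞ ρ) (hc : HasCompactSupport ρ) (hs : tsupport ρ ⊆ U) :
    ∫ z, pr (A z) (cHess ρ z) = ∫ z, DD A z * (ρ z : ℂ) := by
  set r : Cm n → ℂ := fun z => (ρ z : ℂ) with hr
  have hrs : ContDiff ℝ ∞ r := Complex.ofRealCLM.contDiff.comp hρ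
  have hrt : tsupport r = tsupport ρ := by
    unfold tsupport
    congr 1
    ext z
    simp [hr]
  have hrc : HasCompactSupport r := by
    unfold HasCompactSupport
    rw [hrt]; exact hc
  have hrsU : tsupport r ⊆ U := by rw [hrt]; exact hs
  -- `∂̄_k r`
  have hd : ∀ k, ContDiff ℝ ∞ (dzb k r) := fun k => by
    rw [contDiff_iff_contDiffAt]; exact fun z => INT.smooth_dzb hrs.contDiffAt
  have hdt : ∀ k, tsupport (dzb k r) ⊆ tsupport r := fun k =>
    closure_minimal (fun z hz => by
      by_contra h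
      exact hz (dzb_off k h).self_of_nhds) (isClosed_tsupport _)
  have hdc : ∀ k, HasCompactSupport (dzb k r) := fun k =>
    hrc.of_isClosed_subset (isClosed_tsupport _) (hdt k)
  have h1 : ∀ j k, ∫ z, A z j k * cHess ρ z j k = ∫ z, dz j (dzb k fun y => A y j k) z * r z := by
    intro j k
    have e1 := ibp_dz (U := U) (F := fun y => A y j k) j
      (fun z hz => (hA z hz j k).of_le (by exact_mod_cast le_top))
      ((hd k).of_le (by exact_mod_cast le_top)) (hdc k) ((hdt k).trans hrsU)
    have e2 := ibp_dzb (U := U) (F := dz j fun y => A y j k) k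
      (fun z hz => (INT.smooth_dz (hA z hz j k)).of_le (by exact_mod_cast le_top))
      (hrs.of_le (by exact_mod_cast le_top)) hrc hrsU
    have e3 : ∀ z, A z j k * cHess ρ z j k = A z j k * dz j (dzb k r) z := fun z => rfl
    simp only [e3]
    rw [e1, e2, neg_neg]
    refine integral_congr_ae (Eventually.of_forall fun z => ?_)
    by_cases hz : z ∈ tsupport r
    · show _ * _ = _ * _
      rw [INT.dz_dzb_comm ((hA z (hrsU hz) j k).of_le INT.two_le_inf)]
    · show _ * _ = _ * _
      rw [(ev_zero hz).self_of_nhds, mul_zero, mul_zero]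
  have hdd : ∀ j k, Continuous (dz j (dzb k r)) := fun j k => by
    rw [continuous_iff_continuousAt]
    exact fun z => (INT.smooth_dz (hd k).contDiffAt).continuousAt
  have i1 : ∀ j k, Integrable fun z => A z j k * dz j (dzb k r) z := fun j k =>
    integrable_mul (U := U) hrc hrsU (fun z hz => (hA z hz j k).continuousAt) (hdd j k)
      fun z hz => dz_off j (fun h => hz (hdt k h))
  have i2 : ∀ j k, Integrable fun z => dz j (dzb k fun y => A y j k) z * r z := fun j k =>
    integrable_mul (U := U) hrc hrsU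
      (fun z hz => (INT.smooth_dz (INT.smooth_dzb (hA z hz j k))).continuousAt)
      hrs.continuous fun z hz => ev_zero hz
  have i1' : ∀ j k, Integrable fun z => A z j k * cHess ρ z j k := i1
  have e4 : ∫ z, pr (A z) (cHess ρ z) = ∑ j, ∑ k, ∫ z, A z j k * cHess ρ z j k := by
    unfold pr
    rw [integral_finsetSum _ fun j _ => integrable_finsetSum _ fun k _ => i1' j k]
    refine Finset.sum_congr rfl fun j _ => ?_
    rw [integral_finsetSum _ fun k _ => i1' j k]
  have e5 : ∫ z, DD A z * r z = ∑ j, ∑ k, ∫ z, dz j (dzb k fun y => A y j k) z * r z := by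
    unfold DD
    simp only [Finset.sum_mul]
    rw [integral_finsetSum _ fun j _ => integrable_finsetSum _ fun k _ => i2 j k]
    refine Finset.sum_congr rfl fun j _ => ?_
    rw [integral_finsetSum _ fun k _ => i2 j k]
  rw [e4, e5]
  exact Finset.sum_congr rfl fun j _ => Finset.sum_congr rfl fun k _ => h1 j k

theorem cHess_sum {ι : Type*} (s : Finset ι) {f : ι → Cm n → ℝ} {z : Cm n}
    (hf : ∀ a ∈ s, ContDiffAt ℝ 2 (f a) z) :
    cHess (fun y => ∑ a ∈ s, f a y) z = ∑ a ∈ s, cHess (f a) z := by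
  classical
  induction s using Finset.induction_on with
  | empty => simpa using C2.cHess_const (z := z) (0 : ℝ)
  | insert a s ha ih =>
    simp only [Finset.sum_insert ha]
    rw [C2.cHess_add (hf a (Finset.mem_insert_self a s))
      (ContDiffAt.sum fun b hb => hf b (Finset.mem_insert_of_mem hb)),
      ih fun b hb => hf b (Finset.mem_insert_of_mem hb)]

theorem pr_add (A H H' : Matrix (Fin n) (Fin n) ℂ) : pr A (H + H') = pr A H + pr A H' := by
  simp only [pr, Matrix.add_apply, mul_add, Finset.sum_add_distrib]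

theorem pr_zero (A : Matrix (Fin n) (Fin n) ℂ) : pr A 0 = 0 := by
  simp [pr]

theorem pr_smul (A H : Matrix (Fin n) (Fin n) ℂ) (c : ℂ) : pr A (c • H) = c * pr A H := by
  simp only [pr, Matrix.smul_apply, smul_eq_mul, Finset.mul_sum]
  exact Finset.sum_congr rfl fun j _ => Finset.sum_congr rfl fun k _ => by ring

theorem pr_sum {ι : Type*} (s : Finset ι) (A : Matrix (Fin n) (Fin n) ℂ)
    (H : ι → Matrix (Fin n) (Fin n) ℂ) : pr A (∑ i ∈ s, H i) = ∑ i ∈ s, pr A (H i) := by
  classical
  induction s using Finset.induction_on with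
  | empty => simpa using pr_zero A
  | insert a s ha ih => rw [Finset.sum_insert ha, Finset.sum_insert ha, pr_add, ih]

end

end Vale.Agent.P284.H206.Bog
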