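import Vale.Agent.P284.H206.Bog.App4

/-!
# P284 (helper206), module BOG: pull-backs of line bundles, sections and morphisms
-/

open scoped Manifold ContDiff Topology ComplexOrder ComplexConjugate Matrix
open Filter Set

noncomputable section

namespace Vale.Agent.P284.H206.Bog

open Vale.Agent.P272.K Vale.Agent.P284.H248

section local_
variable {n N : ℕ} {X : Type*} [TopologicalSpace X] [ChartedSpace (Cm n) X]
  [IsManifold 𝓘(ℂ, Cm n) ω X] {Z : Type*} [TopologicalSpace Z] [ChartedSpace (Cm N) Z]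
  [IsManifold 𝓘(ℂ, Cm N) ω Z] {j : Z → X}

/-- the map in charts is holomorphic -/
theorem jc_holo (hj : ContMDiff 𝓘(ℂ, Cm N) 𝓘(ℂ, Cm n) ω j) {c : Chart N Z} {z : Z} (hz : At c z)
    {e : Chart n X} (he : At e (j z)) : ContDiffAt ℂ ω (fun ζ => e (j (c.symm ζ))) (c z) := by
  rw [← contMDiffAt_iff_contDiffAt]
  have h1 := Vale.Agent.P272.K.chart_symm_contMDiffAt hz.1 hz.mem_target
  have h2 : ContMDiffAt 𝓘(ℂ, Cm N) 𝓘(ℂ, Cm n) ω j (c.symm (c z)) := hj _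
  have h3 : ContMDiffAt 𝓘(ℂ, Cm n) 𝓘(ℂ, Cm n) ω e (j (c.symm (c z))) := by
    rw [hz.left_inv]; exact Vale.Agent.P272.K.chart_contMDiffAt he
  exact ContMDiffAt.comp (c z) (g := fun y => e (j y)) (ContMDiffAt.comp _ (g := e) h3 h2) h1

theorem jc_diff (hj : ContMDiff 𝓘(ℂ, Cm N) 𝓘(ℂ, Cm n) ω j) {c : Chart N Z} {z : Z} (hz : At c z)
    {e : Chart n X} (he : At e (j z)) : DifferentiableAt ℂ (fun ζ => e (j (c.symm ζ))) (c z) :=
  (jc_holo hj hz he).differentiableAt (by simp)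

omit [IsManifold 𝓘(ℂ, Cm n) ω X] [IsManifold 𝓘(ℂ, Cm N) ω Z] in
theorem j_ev (hj : Continuous j) {c : Chart N Z} {z : Z} (hz : At c z) {O : Set X}
    (hO : O ∈ 𝓝 (j z)) : ∀ᶠ ζ in 𝓝 (c z), ζ ∈ c.target ∧ At c (c.symm ζ) ∧ j (c.symm ζ) ∈ O := by
  have h2 : ∀ᶠ ζ in 𝓝 (c z), j (c.symm ζ) ∈ O := ev_symm hz (hj.continuousAt.eventually hO)
  filter_upwards [hz.nhds_target, h2] with ζ h h'
  exact ⟨h, At.of_target hz.1 h, h'⟩

omit [IsManifold 𝓘(ℂ, Cm n) ω X] [IsManifold 𝓘(ℂ, Cm N) ω Z] in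
theorem j_ev' (hj : Continuous j) {c : Chart N Z} {z : Z} (hz : At c z) {e : Chart n X}
    (he : At e (j z)) {O : Set X} (hO : O ∈ 𝓝 (j z)) :
    ∀ᶠ ζ in 𝓝 (c z), ζ ∈ c.target ∧ At c (c.symm ζ) ∧ j (c.symm ζ) ∈ O ∧ At e (j (c.symm ζ)) := by
  filter_upwards [j_ev hj hz hO, j_ev hj hz (e.open_source.mem_nhds he.2)] with ζ h h'
  exact ⟨h.1, h.2.1, h.2.2, ⟨he.1, h'.2.2⟩⟩

/-- change of the chart of `X` -/
theorem jc_target (hj : ContMDiff 𝓘(ℂ, Cm N) 𝓘(ℂ, Cm n) ω j) {c : Chart N Z} {z : Z} (hz : At c z)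
    {e e' : Chart n X} (he : At e (j z)) (he' : At e' (j z)) (v : Cm N) :
    fderiv ℂ (fun ζ => e' (j (c.symm ζ))) (c z) v =
      fderiv ℂ (fun y => e' (e.symm y)) (e (j z)) (fderiv ℂ (fun ζ => e (j (c.symm ζ))) (c z) v) := by
  have hev : (fun ζ => e' (j (c.symm ζ))) =ᶠ[𝓝 (c z)]
      fun ζ => e' (e.symm (e (j (c.symm ζ)))) := by
    filter_upwards [j_ev' hj.continuous hz he univ_mem] with ζ hζ
    rw [hζ.2.2.2.left_inv]
  have hcz : e (j (c.symm (c z))) = e (j z) := by rw [hz.left_inv]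
  have h1 : DifferentiableAt ℂ (fun y => e' (e.symm y)) (e (j (c.symm (c z)))) := by
    rw [hcz]; exact transition_differentiableAt he he'
  have h2 := fderiv_comp (𝕜 := ℂ) (c z) (g := fun y => e' (e.symm y))
    (f := fun ζ => e (j (c.symm ζ))) h1 (jc_diff hj hz he)
  rw [hev.fderiv_eq, show (fun ζ => e' (e.symm (e (j (c.symm ζ))))) =
    (fun y => e' (e.symm y)) ∘ fun ζ => e (j (c.symm ζ)) from rfl, h2, hcz]
  rfl

/-- change of the chart of `Z` -/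
theorem jc_source (hj : ContMDiff 𝓘(ℂ, Cm N) 𝓘(ℂ, Cm n) ω j) {c c' : Chart N Z} {z : Z}
    (hz : At c z) (hz' : At c' z) {e : Chart n X} (he : At e (j z)) (v : Cm N) :
    fderiv ℂ (fun ζ => e (j (c.symm ζ))) (c z) v =
      fderiv ℂ (fun ζ => e (j (c'.symm ζ))) (c' z) (fderiv ℂ (fun y => c' (c.symm y)) (c z) v) := by
  have hev : (fun ζ => e (j (c.symm ζ))) =ᶠ[𝓝 (c z)]
      fun ζ => e (j (c'.symm (c' (c.symm ζ)))) := by
    filter_upwards [hz.nhds_at hz'] with ζ hζ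
    rw [hζ.2.2.left_inv]
  have hcz : c' (c.symm (c z)) = c' z := by rw [hz.left_inv]
  have h1 : DifferentiableAt ℂ (fun y => e (j (c'.symm y))) (c' (c.symm (c z))) := by
    rw [hcz]; exact jc_diff hj hz' he
  have h2 := fderiv_comp (𝕜 := ℂ) (c z) (g := fun y => e (j (c'.symm y)))
    (f := fun ζ => c' (c.symm ζ)) h1 (transition_differentiableAt hz hz')
  rw [hev.fderiv_eq, show (fun ζ => e (j (c'.symm (c' (c.symm ζ))))) =
    (fun y => e (j (c'.symm y))) ∘ fun ζ => c' (c.symm ζ) from rfl, h2, hcz]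
  rfl

end local_

/-- expansion of an alternating form in the standard basis -/
theorem alt_expand {n R : ℕ} (f : (Cm n) [⋀^Fin R]→ₗ[ℂ] ℂ) (u : Fin R → Cm n) :
    f u = ∑ r : Fin R → Fin n, (∏ a, u a (r a)) * f (fun a => Pi.single (r a) 1) := by
  have h1 : u = fun a => ∑ l, u a l • (Pi.single l 1 : Cm n) := by
    funext a
    funext l
    simp [Finset.sum_apply, Pi.single_apply]
  conv_lhs => rw [h1]
  have h2 := f.toMultilinearMap.map_sum (fun a l => u a l • (Pi.single l 1 : Cm n))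
  refine h2.trans ?_
  refine Finset.sum_congr rfl fun r _ => ?_
  have h3 := f.toMultilinearMap.map_smul_univ (fun a => u a (r a))
    (fun a => (Pi.single (r a) 1 : Cm n))
  exact h3

section
variable {n N : ℕ} {X : Type} [TopologicalSpace X] [ChartedSpace (Cm n) X]
  [IsManifold 𝓘(ℂ, Cm n) ω X] {Z : Type} [TopologicalSpace Z] [ChartedSpace (Cm N) Z]
  [IsManifold 𝓘(ℂ, Cm N) ω Z] {j : Z → X}

omit [IsManifold 𝓘(ℂ, Cm n) ω X] in
theorem fn_holo (hj : ContMDiff 𝓘(ℂ, Cm N) 𝓘(ℂ, Cm n) ω j) [IsManifold 𝓘(ℂ, Cm n) ω X]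
    {f : X → ℂ} {c : Chart N Z} {z : Z}
    (hz : At c z) {e : Chart n X} (he : At e (j z))
    (hf : ContDiffAt ℂ ω (fun y => f (e.symm y)) (e (j z))) :
    ContDiffAt ℂ ω (fun ζ => f (j (c.symm ζ))) (c z) := by
  have hev : (fun ζ => f (j (c.symm ζ))) =ᶠ[𝓝 (c z)] fun ζ => f (e.symm (e (j (c.symm ζ)))) := by
    filter_upwards [j_ev' hj.continuous hz he univ_mem] with ζ hζ
    rw [hζ.2.2.2.left_inv]
  refine ContDiffAt.congr_of_eventuallyEq ?_ hev
  refine ContDiffAt.comp (c z) (g := fun y => f (e.symm y)) ?_ (jc_holo hj hz he)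
  rw [hz.left_inv]
  exact hf

/-- pull-back of a line bundle -/
def pbL (hj : ContMDiff 𝓘(ℂ, Cm N) 𝓘(ℂ, Cm n) ω j) (L : LineBundle n X) : LineBundle N Z where
  ι := L.ι
  U i := j ⁻¹' L.U i
  isOpen i := (L.isOpen i).preimage hj.continuous
  cover z := L.cover (j z)
  g i i' z := L.g i i' (j z)
  holo i i' c z hz hi hi' := fn_holo hj hz (e := chartAt (Cm n) (j z))
    ⟨chart_mem_atlas _ _, mem_chart_source _ _⟩
    (L.holo i i' _ _ ⟨chart_mem_atlas _ _, mem_chart_source _ _⟩ hi hi')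
  ne_zero i i' z hi hi' := L.ne_zero i i' (j z) hi hi'
  cocycle i i' i'' z hi hi' hi'' := L.cocycle i i' i'' (j z) hi hi' hi''

variable {L : LineBundle n X}

/-- pull-back of a section -/
def pbS (hj : ContMDiff 𝓘(ℂ, Cm N) 𝓘(ℂ, Cm n) ω j) {k : ℕ} (s : Sec L k) : Sec (pbL hj L) k where
  f i z := s.f i (j z)
  holo i c z hz hi := fn_holo hj hz (e := chartAt (Cm n) (j z))
    ⟨chart_mem_atlas _ _, mem_chart_source _ _⟩
    (s.holo i _ _ ⟨chart_mem_atlas _ _, mem_chart_source _ _⟩ hi)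
  change i i' z hi hi' := s.change i i' (j z) hi hi'

/-- the pulled-back form, computed in the chart `e` of `X` -/
def pbF {R : ℕ} (φ : Mor L R) (j : Z → X) (i : L.ι) (e : Chart n X) (c : Chart N Z) (ζ : Cm N) :
    (Cm N) [⋀^Fin R]→ₗ[ℂ] ℂ :=
  (φ.form i e (e (j (c.symm ζ)))).compLinearMap
    (fderiv ℂ (fun ζ' => e (j (c.symm ζ'))) ζ).toLinearMap

omit [IsManifold 𝓘(ℂ, Cm n) ω X] [ChartedSpace (Cm N) Z] [IsManifold 𝓘(ℂ, Cm N) ω Z] in
theorem pbF_apply {R : ℕ} (φ : Mor L R) (i : L.ι) (e : Chart n X) (c : Chart N Z) (ζ : Cm N)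
    (v : Fin R → Cm N) : pbF φ j i e c ζ v =
      φ.form i e (e (j (c.symm ζ))) (fun a => fderiv ℂ (fun ζ' => e (j (c.symm ζ'))) ζ (v a)) := rfl

theorem pbF_eq (hj : ContMDiff 𝓘(ℂ, Cm N) 𝓘(ℂ, Cm n) ω j) {R : ℕ} (φ : Mor L R) {i : L.ι}
    {e e' : Chart n X} {c : Chart N Z} {z : Z} (hz : At c z) (he : At e (j z)) (he' : At e' (j z))
    (hi : j z ∈ L.U i) : pbF φ j i e c (c z) = pbF φ j i e' c (c z) := by
  ext v
  rw [pbF_apply, pbF_apply, hz.left_inv, φ.change i e e' (j z) he he' hi,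
    AlternatingMap.compLinearMap_apply]
  congr 1
  funext a
  exact (jc_target hj hz he he' (v a)).symm

theorem pbF_holo (hj : ContMDiff 𝓘(ℂ, Cm N) 𝓘(ℂ, Cm n) ω j) {R : ℕ} (φ : Mor L R) {i : L.ι}
    {e : Chart n X} {c : Chart N Z} {z : Z} (hz : At c z) (he : At e (j z))
    (hi : j z ∈ L.U i) (v : Fin R → Cm N) :
    ContDiffAt ℂ ω (fun ζ => pbF φ j i e c ζ v) (c z) := by
  have hjc := jc_holo hj hz he
  have h1 : (fun ζ => pbF φ j i e c ζ v) = fun ζ => ∑ r : Fin R → Fin n,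
      (∏ a, fderiv ℂ (fun ζ' => e (j (c.symm ζ'))) ζ (v a) (r a)) *
        φ.form i e (e (j (c.symm ζ))) (fun a => Pi.single (r a) 1) := by
    funext ζ
    rw [pbF_apply, alt_expand]
  rw [h1]
  refine ContDiffAt.sum fun r _ => ContDiffAt.mul (contDiffAt_prod fun a _ => ?_) ?_
  · have h2 : ContDiffAt ℂ ω (fun ζ => fderiv ℂ (fun ζ' => e (j (c.symm ζ'))) ζ (v a)) (c z) :=
      (hjc.fderiv_right (m := ω) (by simp)).clm_apply contDiffAt_const
    exact contDiffAt_pi.1 h2 (r a)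
  · refine ContDiffAt.comp (c z) (g := fun y => φ.form i e y fun a => Pi.single (r a) 1) ?_ hjc
    rw [hz.left_inv]
    exact φ.holo i e (j z) he hi _

theorem pbF_change (hj : ContMDiff 𝓘(ℂ, Cm N) 𝓘(ℂ, Cm n) ω j) {R : ℕ} (φ : Mor L R) {i : L.ι}
    {e : Chart n X} {c c' : Chart N Z} {z : Z} (hz : At c z) (hz' : At c' z) (he : At e (j z)) :
    pbF φ j i e c (c z) = (pbF φ j i e c' (c' z)).compLinearMap
      (fderiv ℂ (fun z => c' (c.symm z)) (c z)).toLinearMap := by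
  ext v
  rw [AlternatingMap.compLinearMap_apply, pbF_apply, pbF_apply, hz.left_inv, hz'.left_inv]
  congr 1
  funext a
  exact jc_source hj hz hz' he (v a)

omit [IsManifold 𝓘(ℂ, Cm n) ω X] [IsManifold 𝓘(ℂ, Cm N) ω Z] in
theorem pbF_glue {R : ℕ} (φ : Mor L R) {i i' : L.ι}
    {e : Chart n X} {c : Chart N Z} {z : Z} (hz : At c z) (he : At e (j z))
    (hi : j z ∈ L.U i) (hi' : j z ∈ L.U i') :
    pbF φ j i' e c (c z) = L.g i i' (j z) • pbF φ j i e c (c z) := by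
  ext v
  rw [AlternatingMap.smul_apply, pbF_apply, pbF_apply, hz.left_inv, φ.glue i i' _ _ he hi hi',
    AlternatingMap.smul_apply]

/-- pull-back of a morphism -/
def pbM (hj : ContMDiff 𝓘(ℂ, Cm N) 𝓘(ℂ, Cm n) ω j) {R : ℕ} (φ : Mor L R) : Mor (pbL hj L) R where
  form i c ζ := pbF φ j i (chartAt (Cm n) (j (c.symm ζ))) c ζ
  holo i c z hz hi v := by
    have he : At (chartAt (Cm n) (j z)) (j z) := ⟨chart_mem_atlas _ _, mem_chart_source _ _⟩
    refine ContDiffAt.congr_of_eventuallyEq (pbF_holo hj φ hz he hi v) ?_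
    filter_upwards [j_ev' hj.continuous hz he ((L.isOpen i).mem_nhds hi)] with ζ hζ
    have h1 : At (chartAt (Cm n) (j (c.symm ζ))) (j (c.symm ζ)) :=
      ⟨chart_mem_atlas _ _, mem_chart_source _ _⟩
    have h2 := pbF_eq hj φ hζ.2.1 h1 hζ.2.2.2 hζ.2.2.1
    rw [c.right_inv hζ.1] at h2
    rw [h2]
  change i c c' z hz hz' hi := by
    have he : At (chartAt (Cm n) (j z)) (j z) := ⟨chart_mem_atlas _ _, mem_chart_source _ _⟩
    rw [hz.left_inv, hz'.left_inv]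
    exact pbF_change hj φ hz hz' he
  glue i i' c z hz hi hi' := by
    have he : At (chartAt (Cm n) (j z)) (j z) := ⟨chart_mem_atlas _ _, mem_chart_source _ _⟩
    rw [hz.left_inv]
    exact pbF_glue φ hz he hi hi'

theorem pbM_form (hj : ContMDiff 𝓘(ℂ, Cm N) 𝓘(ℂ, Cm n) ω j) {R : ℕ} (φ : Mor L R) {i : L.ι}
    {e : Chart n X} {c : Chart N Z} {z : Z} (hz : At c z) (he : At e (j z))
    (hi : j z ∈ L.U i) : (pbM hj φ).form i c (c z) = pbF φ j i e c (c z) := by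
  have h1 : At (chartAt (Cm n) (j (c.symm (c z)))) (j z) := by
    rw [hz.left_inv]; exact ⟨chart_mem_atlas _ _, mem_chart_source _ _⟩
  exact pbF_eq hj φ hz h1 he hi

end

end Vale.Agent.P284.H206.Bog
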